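import Vale.Agent.P202.Window.Bottom
import Vale.Agent.P202.HomAlg.Pair

/-!
# P202: Euler characteristic of the window
-/

noncomputable section

namespace Vale.Agent.P202.Window

open Segre

variable {k : Type*} [Field k] {n : ℕ}

/-- The weight of row position `i` and degree `t`. -/
def weight (G : FreeCx (Pw k n)) (K i : ℕ) (t : ℤ) : ℤ :=
  (-1) ^ i * (G.rank i : ℤ) * if t ≤ 0 then -pFun n K t else 0

theorem rank_eq_zero {G : FreeCx (Pw k n)} (hlen : G.LengthLE (n + 1)) {i : ℕ} (hi : n + 1 < i) :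
    G.rank i = 0 := by
  rw [FreeCx.rank, Finset.card_eq_zero, Finset.filter_eq_empty_iff]
  intro g _ hg
  have := hlen g
  omega

/-- Reindexing levels by row position and shifted degree. -/
theorem sum_levels (K : ℕ) (M₀ M₁ : ℤ) (f : ℕ → ℤ → ℤ) :
    ∑ L ∈ Finset.Ico (M₀ * ((n : ℤ) + 3) + 1) (M₁ * ((n : ℤ) + 3) + 1),
        f (posOf n L) (degOf n K L) =
      ∑ i ∈ Finset.range (n + 3), ∑ s ∈ Finset.Ioc M₀ M₁, f i (s - (K : ℤ) * i) := by
  rw [← Finset.sum_product']
  refine Finset.sum_nbij' (fun L => (posOf n L, degOf n K L + (K : ℤ) * posOf n L))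
    (fun p => lev n K p.1 (p.2 - (K : ℤ) * p.1)) ?_ ?_ ?_ ?_ ?_
  · intro L hL
    simp only [Finset.mem_Ico] at hL
    have h1 := lev_posOf_degOf n K L
    have h2 := posOf_lt n L
    have a := (lev_ge_iff (K := K) h2 (degOf n K L) M₀).1 (by rw [h1]; exact hL.1)
    have b := mt (lev_ge_iff (K := K) h2 (degOf n K L) M₁).2 (by rw [h1]; omega)
    simp only [Finset.mem_product, Finset.mem_range, Finset.mem_Ioc]
    exact ⟨h2, by omega, by omega⟩
  · rintro ⟨i, s⟩ hp
    simp only [Finset.mem_product, Finset.mem_range, Finset.mem_Ioc] at hp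
    simp only [Finset.mem_Ico]
    obtain ⟨hi, hs1, hs2⟩ := hp
    refine ⟨(lev_ge_iff hi _ _).2 (by omega), lt_of_not_ge fun h => ?_⟩
    have := (lev_ge_iff hi _ _).1 h
    omega
  · intro L _
    simp [lev_posOf_degOf]
  · rintro ⟨i, s⟩ hp
    simp only [Finset.mem_product, Finset.mem_range] at hp
    simp only [posOf_lev hp.1, degOf_lev hp.1, sub_add_cancel]
  · intro L _
    simp only [add_sub_cancel_right]

theorem sum_weight {G : FreeCx (Pw k n)} (hlen : G.LengthLE (n + 1)) {K : ℕ} (hK : 1 ≤ K) :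
    ∑ L ∈ Finset.Ico (levWin n K) (levTop n K), weight G K (posOf n L) (degOf n K L) =
      ∑ i ∈ Finset.Icc 1 (n + 1), (-1) ^ i * (G.rank i : ℤ) * sFun n K (i - 1) := by
  rw [levWin, levTop, sum_levels K (K : ℤ) (((n + 2) * K : ℕ) : ℤ) (weight G K)]
  have hzero : ∀ i, i ∉ Finset.Icc 1 (n + 1) → ∑ s ∈ Finset.Ioc (K : ℤ) (((n + 2) * K : ℕ) : ℤ),
      weight G K i (s - (K : ℤ) * i) = 0 := by
    intro i hi
    refine Finset.sum_eq_zero fun s hs => ?_
    simp only [Finset.mem_Icc, not_and_or, not_le] at hi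
    rcases hi with hi | hi
    · obtain rfl : i = 0 := by omega
      rw [weight, if_neg (by simp only [Finset.mem_Ioc] at hs; simp; omega), mul_zero]
    · simp [weight, rank_eq_zero hlen hi]
  rw [← Finset.sum_subset (s₁ := Finset.Icc 1 (n + 1))
    (fun i hi => by simp only [Finset.mem_Icc] at hi; simp; omega) (fun i _ hi => hzero i hi)]
  refine Finset.sum_congr rfl fun i hi => ?_
  simp only [Finset.mem_Icc] at hi
  simp only [weight, ← Finset.mul_sum]
  congr 1
  have hKi : (K : ℤ) * 1 ≤ (K : ℤ) * i := mul_le_mul_of_nonneg_left (by omega) (by omega)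
  have hKi' : (K : ℤ) * i ≤ (((n + 2) * K : ℕ) : ℤ) := by
    push_cast
    rw [mul_comm]
    exact mul_le_mul_of_nonneg_right (by omega) (by omega)
  rw [Finset.sum_ite, Finset.sum_const_zero, add_zero, Finset.sum_neg_distrib, sFun, neg_inj]
  obtain ⟨b, rfl⟩ := Nat.exists_eq_add_of_le hi.1
  refine Finset.sum_nbij' (fun s => s - (K : ℤ) * (1 + b : ℕ)) (fun t => t + (K : ℤ) * (1 + b : ℕ))
    ?_ ?_ (fun s _ => by ring) (fun t _ => by ring) (fun s _ => rfl)
  · intro s hs
    simp only [Finset.mem_filter, Finset.mem_Ioc] at hs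
    simp only [Finset.mem_Ioc, Nat.add_sub_cancel_left]
    push_cast at hs ⊢
    rw [mul_add, mul_one] at hs ⊢
    rw [mul_comm (b : ℤ)]
    omega
  · intro t ht
    simp only [Finset.mem_Ioc, Nat.add_sub_cancel_left] at ht
    simp only [Finset.mem_filter, Finset.mem_Ioc]
    push_cast at ht hKi' ⊢
    rw [mul_add, mul_one] at hKi' ⊢
    rw [mul_comm (b : ℤ)] at ht
    omega

variable [IsScalarTower k (Pw k n) (Lam k n)]
variable {G : FreeCx (Pw k n)} {K : ℕ} {C : Cov n → Submodule (Pw k n) (Lam k n)}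

theorem fin'_level (H : SliceHyp k n K) (hC : CompHyp K C) (hup : MatUp G K)
    (hlen : G.LengthLE (n + 1)) (L : ℤ) :
    (totDiff G).Fin' (filt G K C L) (filt G K C (L + 1)) :=
  ⟨finite_level H hC hup hlen L, n + 1, fun j hj =>
    subsingleton_level hC hup hlen L j (by push_cast at hj; omega)⟩

/-- The Euler characteristic above a level. -/
theorem filt_chi (H : SliceHyp k n K) (hn : 1 ≤ n) (hC : CompHyp K C) (hup : MatUp G K)
    (hlen : G.LengthLE (n + 1)) : ∀ (N : ℕ) (L : ℤ), L + N = levTop n K →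
      (totDiff G).Fin' (filt G K C L) ⊥ ∧ (totDiff G).chi (filt G K C L) ⊥ =
        ∑ L' ∈ Finset.Ico L (levTop n K), weight G K (posOf n L') (degOf n K L') := by
  intro N
  induction N with
  | zero =>
    intro L hL
    obtain rfl : L = levTop n K := by omega
    have hs := H_filt_top H hn hC hup hlen
    refine ⟨⟨fun j => ?_, 0, fun j _ => hs j⟩, ?_⟩
    · have := hs j
      exact Module.Finite.of_surjective (0 : (Fin 0 → k) →ₗ[k] _)
        fun y => ⟨0, Subsingleton.elim _ _⟩
    · rw [Finset.Ico_self, Finset.sum_empty, Diff.chi]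
      refine finsum_eq_zero_of_forall_eq_zero fun j => ?_
      have := hs j
      simp [Diff.betti, Module.finrank_zero_of_subsingleton]
  | succ N ih =>
    intro L hL
    obtain ⟨f1, c1⟩ := ih (L + 1) (by push_cast at hL; omega)
    have hle : filt G K C (L + 1) ≤ filt G K C L := filt_anti G K C (by omega)
    refine ⟨(totDiff G).fin'_mid bot_le hle f1 (fin'_level H hC hup hlen L), ?_⟩
    rw [(totDiff G).chi_add bot_le hle f1 (fin'_level H hC hup hlen L), c1,
      level_chi hC hup hlen L (H.finite _), H.chi, ← weight]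
    have hlt : L < levTop n K := by omega
    rw [← Finset.insert_Ico_add_one_left_eq_Ico hlt, Finset.sum_insert (by simp), add_comm]

variable {U : Type*} [AddCommGroup U] [Module (Pw k n) U] [Module k U]
  [IsScalarTower k (Pw k n) U] {φ : U →ₗ[Pw k n] Lam k n}

omit [IsScalarTower k (Pw k n) (Lam k n)] in
theorem subsingleton_diff_H (hlen : G.LengthLE (n + 1)) {j : ℤ} (hj : j < 0 ∨ (n : ℤ) + 1 < j) :
    Subsingleton ((G.diff U k).H ⊤ ⊥ j) := by
  refine Diff.subsingleton_H _ fun x hx => ?_
  have : x = 0 := funext fun g => hx.1.2 g (by have := hlen g; omega)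
  rw [this]
  exact Submodule.zero_mem _

/-- The window inequality, abstract form. -/
theorem window_le (H : SliceHyp k n K) (hn : 1 ≤ n) (hK : 1 ≤ K) (hC : CompHyp K C)
    (hup : MatUp G K) (hlen : G.LengthLE (n + 1)) (ha : AcycHyp G C) (hφ : AugHyp C φ)
    (hfin : G.FiniteHom U k) :
    (G.rank 0 : ℤ) * mainSum n K +
      ∑ i ∈ Finset.Icc 1 (n + 1), (-1) ^ i * (G.rank i : ℤ) * sFun n K (i - 1) ≤ G.chi U k := by
  set D := totDiff G
  set F := filt G K C (levWin n K)
  have htop : D.Fin' (top G C) ⊥ := by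
    refine ⟨fun j => ?_, n + 1, fun j hj => ?_⟩
    · have := hfin j
      exact Module.Finite.equiv (augEquiv G hC ha hφ j).symm
    · have := subsingleton_diff_H (U := U) (k := k) hlen (j := j) (by push_cast at hj; omega)
      exact (augEquiv G hC ha hφ j).toEquiv.subsingleton
  have hchi : D.chi (top G C) ⊥ = G.chi U k := by
    rw [Diff.chi, FreeCx.chi, Diff.chi]
    refine finsum_congr fun j => ?_
    rw [Diff.betti, (augEquiv G hC ha hφ j).finrank_eq, Diff.betti]
  obtain ⟨N, hN⟩ : ∃ N : ℕ, levWin n K + N = levTop n K :=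
    ⟨(levTop n K - levWin n K).toNat, by have := levWin_le_levTop n K; omega⟩
  obtain ⟨hF, cF⟩ := filt_chi H hn hC hup hlen N (levWin n K) hN
  have hFle : F ≤ top G C := filt_le_top G K C _
  have hQ : D.Fin' (top G C) F := D.fin'_right bot_le hFle htop hF
  have hconc : ∀ j, j ≠ 0 → Subsingleton (D.H (top G C) F j) := by
    intro j hj
    rcases lt_or_gt_of_ne hj with h | h
    · obtain ⟨i, rfl⟩ : ∃ i, j = i + 1 := ⟨j - 1, by ring⟩
      have := H_filt_neg (G := G) H hn hC hup hlen (L := levWin n K) le_rfl (j := i) (by omega)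
      have := subsingleton_diff_H (U := U) (k := k) hlen (j := i + 1) (Or.inl h)
      have : Subsingleton (D.H (top G C) ⊥ (i + 1)) :=
        (augEquiv G hC ha hφ (i + 1)).toEquiv.subsingleton
      exact Diff.subsingleton_mid _ _ (D.exact_right (W := top G C) bot_le hFle (i + 1) i rfl)
    · exact H_top_pos H hK hC hup hlen (by omega)
  have := hQ.finite 0
  have hbot := le_betti_bottom hn hC hup hlen ha hφ
  have h0 : D.chi (top G C) F = D.betti (top G C) F 0 := by
    rw [Diff.chi, finsum_eq_single _ 0]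
    · simp
    · intro j hj
      have := hconc j hj
      simp [Diff.betti, Module.finrank_zero_of_subsingleton]
  rw [← hchi, D.chi_add bot_le hFle hF hQ, h0, cF,
    sum_weight hlen hK]
  linarith

end Vale.Agent.P202.Window
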