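import Vale.Agent.P202.Segre.Delta

/-!
# P202: the total complex `G ⊗ [U → Čech]` and its level filtration
-/

noncomputable section

namespace Vale.Agent.P202.Window

open Segre

variable {k : Type*} [Field k] {n : ℕ}

/-- Additive maps commute with the Čech differential. -/
theorem delta_map {R M R' M' : Type*} [CommRing R] [AddCommGroup M] [Module R M] [CommRing R']
    [AddCommGroup M'] [Module R' M'] (φ : M →+ M') (f : Cov n → M) (e : Cov n) :
    φ (delta R M f e) = delta R' M' (fun e' => φ (f e')) e := by
  cases e with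
  | none => simp [delta_none]
  | some ε =>
    simp only [delta_some, map_add, map_sum, map_zsmul, lowDiff, map_sub]
    split_ifs <;> simp

/-- The coordinate ring. -/
abbrev Pw (k : Type*) [Field k] (n : ℕ) : Type _ := MvPowerSeries (Fin (n + 1)) k

variable (G : FreeCx (Pw k n))

/-- The ambient module of the total complex. -/
abbrev Tot : Type _ := G.ι × Cov n → Lam k n

/-- The sign of a row. -/
def rsgn (g : G.ι) : ℤ := (-1) ^ G.pos g

/-- The total differential. -/
def dTot : Tot G →+ Tot G :=
  AddMonoidHom.mk'
    (fun f p => G.dA (Lam k n) (fun g => f (g, p.2)) p.1 +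
      rsgn G p.1 • delta k (Lam k n) (fun e => f (p.1, e)) p.2)
    (by
      intro f f'
      funext p
      simp only [Pi.add_apply]
      have e1 : (fun g => f (g, p.2) + f' (g, p.2))
          = (fun g => f (g, p.2)) + (fun g => f' (g, p.2)) := rfl
      have e2 : (fun e => f (p.1, e) + f' (p.1, e))
          = (fun e => f (p.1, e)) + (fun e => f' (p.1, e)) := rfl
      rw [e1, e2, map_add, map_add]
      simp only [Pi.add_apply, smul_add]
      abel)

theorem dTot_apply (f : Tot G) (h : G.ι) (e : Cov n) :
    dTot G f (h, e) = G.dA (Lam k n) (fun g => f (g, e)) h +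
      rsgn G h • delta k (Lam k n) (fun e' => f (h, e')) e := rfl

/-- The Čech differential is linear over the coordinate ring. -/
theorem delta_row_comm (a : G.ι → Pw k n) (f : Tot G) (e : Cov n) :
    delta k (Lam k n) (fun e' => ∑ g, a g • f (g, e')) e =
      ∑ g, a g • delta k (Lam k n) (fun e' => f (g, e')) e := by
  have h : ∀ (v : Cov n → Lam k n), delta k (Lam k n) v = delta (Pw k n) (Lam k n) v := fun v => rfl
  simp only [h]
  have : (fun e' => ∑ g, a g • f (g, e')) = ∑ g, a g • (fun e' => f (g, e')) := by
    funext e'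
    simp
  rw [this, map_sum]
  simp [map_smul]

theorem dTot_dTot (f : Tot G) : dTot G (dTot G f) = 0 := by
  funext ⟨l, e⟩
  rw [dTot_apply, Pi.zero_apply]
  have hDD : ∑ h, G.mat l h • G.dA (Lam k n) (fun g => f (g, e)) h = 0 := by
    simpa [FreeCx.dA_apply] using congrFun (G.dA_dA (Lam k n) (fun g => f (g, e))) l
  have hdd : delta k (Lam k n) (fun e' => delta k (Lam k n) (fun e'' => f (l, e'')) e') e = 0 := by
    simpa using congrFun (delta_delta (R := k) (fun e'' => f (l, e''))) e
  have hrow : (fun e' => dTot G f (l, e'))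
      = (fun e' => ∑ g, G.mat l g • f (g, e')) +
        rsgn G l • (fun e' => delta k (Lam k n) (fun e'' => f (l, e'')) e') := by
    funext e'
    simp [dTot_apply, FreeCx.dA_apply]
  rw [hrow, map_add, map_zsmul, Pi.add_apply, Pi.smul_apply, hdd, smul_zero, add_zero,
    delta_row_comm, FreeCx.dA_apply]
  simp only [dTot_apply, smul_add, Finset.sum_add_distrib]
  rw [hDD, zero_add, Finset.smul_sum, ← Finset.sum_add_distrib]
  refine Finset.sum_eq_zero fun g _ => ?_
  by_cases hm : G.mat l g = 0
  · simp [hm]
  · have hs : rsgn G g = - rsgn G l := by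
      simp [rsgn, G.mat_pos l g hm, pow_succ]
    rw [hs, neg_smul, smul_neg, smul_comm (G.mat l g) (rsgn G l)]
    abel

variable (K : ℕ)

/-- Level of the degree `t` part of the row `g`. -/
def level (g : G.ι) (t : ℤ) : ℤ := (t + (K : ℤ) * G.pos g) * ((n : ℤ) + 3) - G.pos g

theorem level_strictMono (g : G.ι) {t t' : ℤ} (h : t < t') : level G K g t < level G K g t' := by
  simp only [level]
  nlinarith

theorem level_inj (g : G.ι) {t t' : ℤ} (h : level G K g t = level G K g t') : t = t' := by
  rcases lt_trichotomy t t' with hl | hl | hl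
  · exact absurd h (level_strictMono G K g hl).ne
  · exact hl
  · exact absurd h (level_strictMono G K g hl).ne'

/-- One step down raises the level. -/
theorem level_step {h g : G.ι} (hp : G.pos g = G.pos h + 1) {t t' : ℤ} (ht : t' + K ≤ t) :
    level G K g t' < level G K h t := by
  simp only [level, hp, Nat.cast_add, Nat.cast_one]
  nlinarith

/-- The coefficients of the slice in row `g` and degree `t`. -/
def slot (f : Tot G) (g : G.ι) (t : ℤ) : Cov n → Coef k n := fun e => (f (g, e)).coeff t

/-- Coefficient extraction. -/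
def coeffHom (t : ℤ) : Lam k n →+ Coef k n :=
  AddMonoidHom.mk' (fun f => f.coeff t) fun _ _ => HahnSeries.coeff_add

theorem slot_delta_part (f : Tot G) (g : G.ι) (t : ℤ) (e : Cov n) :
    (delta k (Lam k n) (fun e' => f (g, e')) e).coeff t =
      delta k (Coef k n) (slot G f g t) e :=
  delta_map (R := k) (R' := k) (coeffHom t) (fun e' => f (g, e')) e

section Filtration

variable [IsScalarTower k (Pw k n) (Lam k n)] (C : Cov n → Submodule (Pw k n) (Lam k n))

/-- The total complex as a differential module over `k`. -/
def totDiff : Diff k (Tot G) where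
  d :=
    { dTot G with
      map_smul' := by
        intro c f
        funext ⟨h, e⟩
        change dTot G (c • f) (h, e) = c • dTot G f (h, e)
        rw [dTot_apply, dTot_apply, smul_add]
        have e1 : (fun g => (c • f) (g, e)) = c • fun g => f (g, e) := rfl
        have e2 : (fun e' => (c • f) (h, e')) = c • fun e' => f (h, e') := rfl
        rw [e1, e2, LinearMap.map_smul_of_tower, map_smul]
        simp only [Pi.smul_apply]
        rw [smul_comm c] }
  deg j :=
    { carrier := {f | ∀ g e, (G.pos g : ℤ) - cdeg n e ≠ j → f (g, e) = 0}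
      add_mem' := by
        intro f f' hf hf' g e he
        simp [hf g e he, hf' g e he]
      zero_mem' := by
        intro g e _
        rfl
      smul_mem' := by
        intro c f hf g e he
        simp [hf g e he] }
  d_d := dTot_dTot G
  d_deg := by
    intro j f hf h e he
    change dTot G f (h, e) = 0
    have h1 : G.dA (Lam k n) (fun g => f (g, e)) h = 0 := by
      rw [FreeCx.dA_apply]
      refine Finset.sum_eq_zero fun g _ => ?_
      by_cases hm : G.mat h g = 0
      · simp [hm]
      · rw [hf g e (by have := G.mat_pos h g hm; omega), smul_zero]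
    have h2 : delta k (Lam k n) (fun e' => f (h, e')) e = 0 := by
      by_cases hex : ∃ a : ℕ, (G.pos h : ℤ) - a = j
      · obtain ⟨a, ha⟩ := hex
        exact delta_apply_eq_zero (R := k) (fun e' => f (h, e')) a
          (fun e' he' => hf h e' (by omega)) e (by omega)
      · have : (fun e' => f (h, e')) = 0 := funext fun e' => hf h e' fun hh => hex ⟨_, hh⟩
        simp [this]
    rw [dTot_apply, h1, h2, smul_zero, add_zero]

theorem totDiff_d (f : Tot G) : (totDiff G).d f = dTot G f := rfl

theorem mem_deg {j : ℤ} {f : Tot G} :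
    f ∈ (totDiff G).deg j ↔ ∀ g e, (G.pos g : ℤ) - cdeg n e ≠ j → f (g, e) = 0 := Iff.rfl

/-- All families with components in `C`. -/
def top : Submodule k (Tot G) where
  carrier := {f | ∀ g e, f (g, e) ∈ C e}
  add_mem' hf hf' g e := (C e).add_mem (hf g e) (hf' g e)
  zero_mem' _ e := (C e).zero_mem
  smul_mem' c _ hf g e := (C e).smul_of_tower_mem c (hf g e)

/-- The part of level at least `L`. -/
def filt (L : ℤ) : Submodule k (Tot G) where
  carrier := {f | (∀ g e, f (g, e) ∈ C e) ∧
    ∀ g e t, level G K g t < L → (f (g, e)).coeff t = 0}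
  add_mem' := by
    rintro f f' ⟨h1, h2⟩ ⟨h1', h2'⟩
    exact ⟨fun g e => (C e).add_mem (h1 g e) (h1' g e),
      fun g e t ht => by simp [h2 g e t ht, h2' g e t ht]⟩
  zero_mem' := ⟨fun _ e => (C e).zero_mem, fun _ _ _ _ => by simp⟩
  smul_mem' := by
    rintro c f ⟨h1, h2⟩
    exact ⟨fun g e => (C e).smul_of_tower_mem c (h1 g e), fun g e t ht => by simp [h2 g e t ht]⟩

theorem mem_filt {L : ℤ} {f : Tot G} :
    f ∈ filt G K C L ↔ (∀ g e, f (g, e) ∈ C e) ∧
      ∀ g e t, level G K g t < L → (f (g, e)).coeff t = 0 := Iff.rfl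

theorem filt_le_top (L : ℤ) : filt G K C L ≤ top G C := fun _ h => h.1

theorem filt_anti {L L' : ℤ} (h : L ≤ L') : filt G K C L' ≤ filt G K C L :=
  fun _ hf => ⟨hf.1, fun g e t ht => hf.2 g e t (lt_of_lt_of_le ht h)⟩

end Filtration

end Vale.Agent.P202.Window
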