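import Vale.Agent.P202.Window.Compare

/-!
# P202: the quotient by the window sees `rank 0` copies of `U` in degrees `1, ..., K`
-/

noncomputable section

namespace Vale.Agent.P202.Window

open Segre

variable {k : Type*} [Field k] {n : ℕ}

/-- The exponents allowed in the augmentation component in degree `t`. -/
def boxAt (n K : ℕ) (t : ℤ) : Finset (Fin n → ℤ) :=
  Fintype.piFinset fun a => Finset.Icc 0 (t + shift n K a)

theorem mem_boxAt {K : ℕ} {t : ℤ} {α : Fin n → ℤ} :
    α ∈ boxAt n K t ↔ allowed n K t α none := by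
  simp [boxAt, allowed]

theorem card_boxAt (K : ℕ) {t : ℤ} (ht : 1 ≤ t) : ((boxAt n K t).card : ℤ) = pFun n K t := by
  rw [boxAt, Fintype.card_piFinset, pFun, Nat.cast_prod]
  refine Finset.prod_congr rfl fun a _ => ?_
  have : (0 : ℤ) ≤ (a.val : ℤ) * K := by positivity
  rw [Int.card_Icc, shift, Int.toNat_of_nonneg (by omega)]
  ring

variable (n) in
/-- Index set for the bottom of the window. -/
abbrev BotIdx (G : FreeCx (Pw k n)) (K : ℕ) : Type :=
  Row G 0 × (Σ t : ↥(Finset.Icc (1 : ℤ) K), ↥(boxAt n K t.1))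

theorem card_botIdx (G : FreeCx (Pw k n)) (K : ℕ) :
    (Fintype.card (BotIdx n G K) : ℤ) = (G.rank 0 : ℤ) * mainSum n K := by
  rw [Fintype.card_prod, Fintype.card_sigma, Fintype.card_subtype, Nat.cast_mul, Nat.cast_sum]
  congr 1
  rw [mainSum, show Finset.Ioc (0 : ℤ) K = Finset.Icc (1 : ℤ) K from Finset.ext fun t => by
    simp only [Finset.mem_Ioc, Finset.mem_Icc]; omega]
  rw [← Finset.sum_coe_sort (Finset.Icc (1 : ℤ) K)]
  refine Finset.sum_congr rfl fun t _ => ?_
  rw [Fintype.card_coe, card_boxAt K (Finset.mem_Icc.1 t.2).1]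

variable [IsScalarTower k (Pw k n) (Lam k n)]
variable {G : FreeCx (Pw k n)} {K : ℕ} {C : Cov n → Submodule (Pw k n) (Lam k n)}

variable (G K) in
/-- Reading off the bottom coefficients. -/
def botHom : Tot G →ₗ[k] (BotIdx n G K → k) where
  toFun x p := ((x (p.1.1, none)).coeff p.2.1.1).coeff p.2.2.1
  map_add' x y := by
    funext p
    simp
  map_smul' c x := by
    funext p
    simp

theorem botHom_dTot (hn : 1 ≤ n) (hC : CompHyp K C) (hup : MatUp G K) {y : Tot G}
    (hy : y ∈ top G C) : botHom G K (dTot G y) = 0 := by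
  funext ⟨g, t, α⟩
  change ((dTot G y (g.1, none)).coeff t.1).coeff α.1 = 0
  rw [dTot_apply, delta_none, smul_zero, add_zero, FreeCx.dA_apply, HahnSeries.coeff_sum,
    Finset.sum_eq_zero]
  · simp
  intro g' _
  refine hup _ g' _ _ fun t' ht' => ?_
  by_contra hne
  obtain ⟨β, hβ⟩ : ∃ β, ((y (g', none)).coeff t').coeff β ≠ 0 := by
    by_contra hall
    simp only [not_exists, not_not] at hall
    exact hne (AddMonoidAlgebra.ext (Finsupp.ext hall))
  have hb := (hC none _).1 (hy g' none) t' β hβ ⟨0, by omega⟩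
  have := (Finset.mem_Icc.1 t.2).2
  simp only [shift] at hb
  simp at hb
  omega

theorem botHom_filt {x : Tot G}
    (hx : x ∈ filt G K C (levWin n K)) : botHom G K x = 0 := by
  funext ⟨g, t, α⟩
  change ((x (g.1, none)).coeff t.1).coeff α.1 = 0
  rw [hx.2 g.1 none t.1]
  · simp
  have := (Finset.mem_Icc.1 t.2).2
  rw [← not_le, level_eq_lev, g.2, levWin, lev_ge_iff (by omega)]
  omega

theorem bdries_le_ker (hn : 1 ≤ n) (hC : CompHyp K C) (hup : MatUp G K)
    (hlen : G.LengthLE (n + 1)) :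
    ((totDiff G).bdries (top G C) (filt G K C (levWin n K)) 0).comap
        ((totDiff G).cycles (top G C) (filt G K C (levWin n K)) 0).subtype ≤
      LinearMap.ker ((botHom G K).comp (Submodule.subtype _)) := by
  rintro ⟨x, hx⟩ h
  rw [Submodule.mem_comap, Submodule.subtype_apply, Diff.bdries, Submodule.mem_sup] at h
  obtain ⟨a, ⟨y, ⟨y1, -⟩, rfl⟩, b, ⟨hb, -⟩, hab⟩ := h
  rw [LinearMap.mem_ker, LinearMap.comp_apply, Submodule.subtype_apply, ← hab, map_add, totDiff_d,
    botHom_dTot hn hC hup y1, botHom_filt hb, add_zero]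

/-- The bottom coefficients of a class. -/
def botQ (hn : 1 ≤ n) (hC : CompHyp K C) (hup : MatUp G K) (hlen : G.LengthLE (n + 1)) :
    (totDiff G).H (top G C) (filt G K C (levWin n K)) 0 →ₗ[k] (BotIdx n G K → k) :=
  Submodule.liftQ _ _ (bdries_le_ker (G := G) (K := K) (C := C) hn hC hup hlen)

theorem botQ_mk (hn : 1 ≤ n) (hC : CompHyp K C) (hup : MatUp G K) (hlen : G.LengthLE (n + 1))
    (x : (totDiff G).cycles (top G C) (filt G K C (levWin n K)) 0) :
    botQ hn hC hup hlen (Submodule.Quotient.mk x) = botHom G K x.1 := rfl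

variable {U : Type*} [AddCommGroup U] [Module (Pw k n) U] [Module k U]
  [IsScalarTower k (Pw k n) U] {φ : U →ₗ[Pw k n] Lam k n}

theorem botHom_surjective (hC : CompHyp K C) (ha : AcycHyp G C) (hφ : AugHyp C φ)
    (v : BotIdx n G K → k) :
    ∃ x, x ∈ (totDiff G).cycles (top G C) ⊥ 0 ∧ botHom G K x = v := by
  classical
  let poly : Row G 0 → ↥(Finset.Icc (1 : ℤ) K) → Coef k n := fun g t =>
    ∑ α : ↥(boxAt n K t.1), AddMonoidAlgebra.single α.1 (v (g, ⟨t, α⟩))
  let F : G.ι → Lam k n := fun g =>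
    if h : G.pos g = 0 then ∑ t, HahnSeries.single t.1 (poly ⟨g, h⟩ t) else 0
  have hFmem : ∀ g, F g ∈ LinearMap.range φ := by
    intro g
    rw [hφ.range_eq]
    by_cases h : G.pos g = 0
    · simp only [F, dif_pos h]
      refine (C none).sum_mem fun t _ => (hC none _).2 fun s β hne => ?_
      by_cases hs : s = t.1
      · subst hs
        rw [HahnSeries.coeff_single_same] at hne
        simp only [poly, AddMonoidAlgebra.coeff_sum, Finsupp.finsetSum_apply] at hne
        obtain ⟨α, -, hα⟩ := Finset.exists_ne_zero_of_sum_ne_zero hne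
        rw [AddMonoidAlgebra.coeff_single, Finsupp.single_apply] at hα
        split_ifs at hα with hαβ
        · exact hαβ ▸ mem_boxAt.1 α.2
        · exact absurd rfl hα
      · simp [HahnSeries.coeff_single_of_ne hs] at hne
    · simp only [F, dif_neg h]
      exact Submodule.zero_mem _
  choose u hu using hFmem
  have hu0 : ∀ g, G.pos g ≠ 0 → u g = 0 := fun g hg => hφ.inj (by
    rw [hu, map_zero]
    simp only [F, dif_neg hg])
  have huc : u ∈ (G.diff U k).cycles ⊤ ⊥ 0 := by
    refine ⟨⟨trivial, fun g hg => hu0 g (by omega)⟩, ?_⟩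
    rw [SetLike.mem_coe, Submodule.mem_comap, Submodule.mem_bot]
    funext h
    change G.dA U u h = 0
    rw [FreeCx.dA_apply]
    refine Finset.sum_eq_zero fun g _ => ?_
    by_cases hm : G.mat h g = 0
    · simp [hm]
    · rw [hu0 g (by have := G.mat_pos h g hm; omega), smul_zero]
  obtain ⟨x, hx, hxu⟩ := extend_cycle hC ha hφ huc
  refine ⟨x, hx, funext fun ⟨g, t, α⟩ => ?_⟩
  change ((x (g.1, none)).coeff t.1).coeff α.1 = _
  rw [hxu, hu]
  simp only [F, dif_pos g.2, HahnSeries.coeff_sum]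
  rw [Finset.sum_eq_single t]
  · rw [HahnSeries.coeff_single_same]
    simp only [poly, AddMonoidAlgebra.coeff_sum, Finsupp.finsetSum_apply,
      AddMonoidAlgebra.coeff_single]
    rw [Finset.sum_eq_single α]
    · simp
    · intro β _ hβ
      rw [Finsupp.single_apply, if_neg fun h => hβ (Subtype.ext h)]
    · simp
  · intro s _ hs
    rw [HahnSeries.coeff_single_of_ne fun h => hs (Subtype.ext h.symm)]
  · simp

/-- The bottom of the window is large. -/
theorem le_betti_bottom (hn : 1 ≤ n) (hC : CompHyp K C) (hup : MatUp G K)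
    (hlen : G.LengthLE (n + 1)) (ha : AcycHyp G C) (hφ : AugHyp C φ)
    [Module.Finite k ((totDiff G).H (top G C) (filt G K C (levWin n K)) 0)] :
    (G.rank 0 : ℤ) * mainSum n K ≤
      ((totDiff G).betti (top G C) (filt G K C (levWin n K)) 0 : ℤ) := by
  have hsurj : Function.Surjective (botQ (C := C) hn hC hup hlen) := by
    intro v
    obtain ⟨x, ⟨⟨h1, h2⟩, h3⟩, hxv⟩ := botHom_surjective hC ha hφ v
    have hc : x ∈ (totDiff G).cycles (top G C) (filt G K C (levWin n K)) 0 :=
      ⟨⟨h1, h2⟩, Submodule.comap_mono bot_le h3⟩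
    refine ⟨Submodule.Quotient.mk ⟨x, hc⟩, ?_⟩
    rw [botQ_mk]
    exact hxv
  have := LinearMap.finrank_le_finrank_of_surjective hsurj
  rw [Module.finrank_fintype_fun_eq_card] at this
  rw [← card_botIdx, Diff.betti]
  exact_mod_cast this

end Vale.Agent.P202.Window
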