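import Vale.Agent.P202.Window.Vanish

/-!
# P202: the total complex against `G ⊗ U`
-/

noncomputable section

namespace Vale.Agent.P202.Window

open Segre

variable {k : Type*} [Field k] {n : ℕ}

theorem delta_eq_zero_at {R M : Type*} [CommRing R] [AddCommGroup M] [Module R M]
    (f : Cov n → M) (e : Cov n) (h : ∀ e', cdeg n e' + 1 = cdeg n e → f e' = 0) :
    delta R M f e = 0 := by
  cases e with
  | none => rfl
  | some ε =>
    rw [delta_some]
    have h1 : (if twos n ε = 0 then f none else 0) = 0 := by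
      split_ifs with h0
      · exact h none (by simp [cdeg, h0])
      · rfl
    rw [h1, zero_add]
    refine Finset.sum_eq_zero fun a ha => ?_
    have ha2 : ε a = 2 := (Finset.mem_filter.1 ha).2
    have t0 := twos_update_of_eq_two ha2 (v := 0) (by decide)
    have t1 := twos_update_of_eq_two ha2 (v := 1) (by decide)
    rw [lowDiff, h _ (by simp only [cdeg]; omega), h _ (by simp only [cdeg]; omega)]
    simp

variable [IsScalarTower k (Pw k n) (Lam k n)]
variable {G : FreeCx (Pw k n)} {K : ℕ} {C : Cov n → Submodule (Pw k n) (Lam k n)}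

/-- `G` is exact on every Čech component. -/
def AcycHyp (G : FreeCx (Pw k n)) (C : Cov n → Submodule (Pw k n) (Lam k n)) : Prop :=
  ∀ (ε : Fin n → Fin 3) (j : ℤ) (u : G.ι → Lam k n), (∀ g, u g ∈ C (some ε)) →
    (∀ g, (G.pos g : ℤ) ≠ j → u g = 0) → G.dA (Lam k n) u = 0 →
    ∃ v : G.ι → Lam k n, (∀ g, v g ∈ C (some ε)) ∧ (∀ g, (G.pos g : ℤ) ≠ j + 1 → v g = 0) ∧
      G.dA (Lam k n) v = u

omit [IsScalarTower k (Pw k n) (Lam k n)] in
theorem exists_dA_eq (ha : AcycHyp G C) {e : Cov n} (he : 1 ≤ cdeg n e) {j : ℤ}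
    (u : G.ι → Lam k n) (hu : ∀ g, u g ∈ C e) (hdeg : ∀ g, (G.pos g : ℤ) ≠ j → u g = 0)
    (hd : G.dA (Lam k n) u = 0) :
    ∃ v : G.ι → Lam k n, (∀ g, v g ∈ C e) ∧ (∀ g, (G.pos g : ℤ) ≠ j + 1 → v g = 0) ∧
      G.dA (Lam k n) v = u := by
  cases e with
  | none => simp [cdeg] at he
  | some ε => exact ha ε j u hu hdeg hd

/-- The Čech part of the total complex is exact. -/
theorem some_exact (hC : CompHyp K C) (ha : AcycHyp G C) :
    ∀ (N a : ℕ), 1 ≤ a → a + N = n + 2 → ∀ (j : ℤ) (x : Tot G), x ∈ top G C →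
      x ∈ (totDiff G).deg j → (∀ g e, cdeg n e < a → x (g, e) = 0) → dTot G x = 0 →
      ∃ y, y ∈ top G C ∧ y ∈ (totDiff G).deg (j + 1) ∧ (∀ g, y (g, none) = 0) ∧
        dTot G y = x := by
  intro N
  induction N with
  | zero =>
    intro a _ haN j x _ _ hx _
    refine ⟨0, Submodule.zero_mem _, Submodule.zero_mem _, fun _ => rfl, ?_⟩
    rw [map_zero]
    funext p
    exact (hx p.1 p.2 (by have := cdeg_le p.2; omega)).symm
  | succ N ih =>
    intro a ha1 haN j x hx hj hlow hd
    have key : ∀ e : Cov n, ∃ v : G.ι → Lam k n, (∀ g, v g ∈ C e) ∧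
        (∀ g, (G.pos g : ℤ) - cdeg n e ≠ j + 1 → v g = 0) ∧
        (cdeg n e = a → G.dA (Lam k n) v = fun g => x (g, e)) ∧ (cdeg n e ≠ a → v = 0) := by
      intro e
      by_cases he : cdeg n e = a
      · obtain ⟨v, v1, v2, v3⟩ := exists_dA_eq ha (e := e) (by omega) (j := j + a)
          (fun g => x (g, e)) (fun g => hx g e) (fun g hg => hj g e (by omega)) (by
            funext h
            have h1 := congrFun hd (h, e)
            rw [dTot_apply, delta_eq_zero_at (fun e' => x (h, e')) e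
              (fun e' he' => hlow h e' (by omega)), smul_zero, add_zero] at h1
            exact h1)
        exact ⟨v, v1, fun g hg => v2 g (by omega), fun _ => v3, fun h => absurd he h⟩
      · exact ⟨0, fun g => (C e).zero_mem, fun _ _ => rfl, fun h => absurd h he, fun _ => rfl⟩
    choose v v1 v2 v3 v4 using key
    let y0 : Tot G := fun p => v p.2 p.1
    have hy0 : ∀ g e, y0 (g, e) = v e g := fun _ _ => rfl
    have m1 : y0 ∈ top G C := fun g e => v1 e g
    have m2 : y0 ∈ (totDiff G).deg (j + 1) := fun g e he => v2 e g he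
    have hnone : ∀ g, y0 (g, none) = 0 := fun g => by
      rw [hy0, v4 none (by simp only [cdeg]; omega)]
      rfl
    have hlow' : ∀ g e, cdeg n e < a + 1 → (x - dTot G y0) (g, e) = 0 := by
      intro g e he
      have hdel : delta k (Lam k n) (fun e' => y0 (g, e')) e = 0 :=
        delta_eq_zero_at _ e fun e' he' => by
          rw [hy0, v4 e' (by omega)]
          rfl
      rw [Pi.sub_apply, dTot_apply, hdel, smul_zero, add_zero]
      rcases (Nat.lt_add_one_iff.1 he).lt_or_eq with h | h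
      · have : (fun g' => y0 (g', e)) = 0 := funext fun g' => by rw [hy0, v4 e (by omega)]
        rw [hlow g e h, this, map_zero, Pi.zero_apply, sub_zero]
      · have : (fun g' => y0 (g', e)) = v e := rfl
        rw [this, v3 e h, sub_self]
    obtain ⟨y, y1, y2, y3, y4⟩ := ih (a + 1) (by omega) (by omega) j (x - dTot G y0)
      (Submodule.sub_mem _ hx (top_stable hC _ m1))
      (Submodule.sub_mem _ hj (by simpa [totDiff_d] using (totDiff G).d_deg _ _ m2)) hlow'
      (by rw [map_sub, hd, dTot_dTot, sub_zero])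
    refine ⟨y0 + y, Submodule.add_mem _ m1 y1, Submodule.add_mem _ m2 y2,
      fun g => by rw [Pi.add_apply, hnone, y3, add_zero], ?_⟩
    rw [map_add, y4]
    abel

section Aug

variable {U : Type*} [AddCommGroup U] [Module (Pw k n) U] [Module k U]
  [IsScalarTower k (Pw k n) U]

/-- `φ` identifies `U` with the augmentation component. -/
structure AugHyp (C : Cov n → Submodule (Pw k n) (Lam k n)) (φ : U →ₗ[Pw k n] Lam k n) :
    Prop where
  inj : Function.Injective φ
  range_eq : LinearMap.range φ = C none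

variable {φ : U →ₗ[Pw k n] Lam k n}

omit [Module k U] [IsScalarTower k (Pw k n) U] [IsScalarTower k (Pw k n) (Lam k n)] in
theorem map_dA (φ : U →ₗ[Pw k n] Lam k n) (u : G.ι → U) (h : G.ι) :
    φ (G.dA U u h) = G.dA (Lam k n) (fun g => φ (u g)) h := by
  simp [FreeCx.dA_apply]

variable (G φ) in
/-- Reading `G ⊗ U` inside the total complex. -/
def toTot : (G.ι → U) →ₗ[k] (G.ι → Lam k n) where
  toFun u g := φ (u g)
  map_add' u v := by
    funext g
    simp
  map_smul' c u := by
    funext g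
    simp

theorem lift_cycle (hφ : AugHyp C φ) {j : ℤ} {x : Tot G}
    (hx : x ∈ (totDiff G).cycles (top G C) ⊥ j) :
    ∃ u, u ∈ (G.diff U k).cycles ⊤ ⊥ j ∧ ∀ g, φ (u g) = x (g, none) := by
  obtain ⟨⟨h1, h2⟩, h3⟩ := hx
  rw [SetLike.mem_coe, Submodule.mem_comap, Submodule.mem_bot, totDiff_d] at h3
  have hr : ∀ g, ∃ u, φ u = x (g, none) := fun g => by
    have := h1 g none
    rw [← hφ.range_eq] at this
    exact this
  choose u hu using hr
  refine ⟨u, ⟨⟨trivial, fun g hg => hφ.inj ?_⟩, ?_⟩, hu⟩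
  · rw [hu, map_zero]
    exact h2 g none (by simpa [cdeg] using hg)
  · rw [SetLike.mem_coe, Submodule.mem_comap, Submodule.mem_bot]
    funext h
    refine hφ.inj ?_
    change φ (G.dA U u h) = φ 0
    rw [map_dA, funext hu, map_zero]
    have := congrFun h3 (h, none)
    rw [dTot_apply, delta_none, smul_zero, add_zero] at this
    exact this

/-- Every cycle of `G ⊗ U` extends to a cycle of the total complex. -/
theorem extend_cycle (hC : CompHyp K C) (ha : AcycHyp G C) (hφ : AugHyp C φ) {j : ℤ}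
    {u : G.ι → U} (hu : u ∈ (G.diff U k).cycles ⊤ ⊥ j) :
    ∃ x, x ∈ (totDiff G).cycles (top G C) ⊥ j ∧ ∀ g, x (g, none) = φ (u g) := by
  obtain ⟨⟨-, u2⟩, u3⟩ := hu
  rw [SetLike.mem_coe, Submodule.mem_comap, Submodule.mem_bot] at u3
  let x0 : Tot G := fun p => match p with
    | (g, none) => φ (u g)
    | (_, some _) => 0
  have m1 : x0 ∈ top G C := by
    rintro g (_ | ε)
    · rw [← hφ.range_eq]
      exact LinearMap.mem_range_self φ (u g)
    · exact Submodule.zero_mem _
  have m2 : x0 ∈ (totDiff G).deg j := by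
    rintro g (_ | ε) hg
    · simp [x0, u2 g (by simpa [cdeg] using hg)]
    · rfl
  have hlow : ∀ g e, cdeg n e < 1 → dTot G x0 (g, e) = 0 := by
    rintro g (_ | ε) he
    · rw [dTot_apply, delta_none, smul_zero, add_zero]
      have := congrFun u3 g
      change G.dA U u g = 0 at this
      change G.dA (Lam k n) (fun g' => φ (u g')) g = 0
      rw [← map_dA, this, map_zero]
    · simp [cdeg] at he
  obtain ⟨y, y1, y2, y3, y4⟩ := some_exact hC ha (n + 1) 1 le_rfl (by omega) (j - 1) (dTot G x0)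
    (top_stable hC _ m1) (by simpa [totDiff_d] using (totDiff G).d_deg _ _ m2) hlow (dTot_dTot G _)
  rw [sub_add_cancel] at y2
  refine ⟨x0 - y, ⟨⟨Submodule.sub_mem _ m1 y1, Submodule.sub_mem _ m2 y2⟩, ?_⟩, fun g => ?_⟩
  · rw [SetLike.mem_coe, Submodule.mem_comap, Submodule.mem_bot, totDiff_d, map_sub, y4, sub_self]
  · rw [Pi.sub_apply, y3 g, sub_zero]

variable (G) in
/-- The class in `G ⊗ U` of the augmentation component of a cycle. -/
def augCycle (hφ : AugHyp C φ) (j : ℤ) :
    (totDiff G).cycles (top G C) ⊥ j →ₗ[k] (G.diff U k).H ⊤ ⊥ j :=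
  (Submodule.mkQ _).comp
    ({ toFun := fun x => ⟨(lift_cycle hφ x.2).choose, (lift_cycle hφ x.2).choose_spec.1⟩
       map_add' := fun x y => Subtype.ext (funext fun g => hφ.inj (by
         simp only [Submodule.coe_add, Pi.add_apply, map_add,
           (lift_cycle hφ (x + y).2).choose_spec.2, (lift_cycle hφ x.2).choose_spec.2,
           (lift_cycle hφ y.2).choose_spec.2]))
       map_smul' := fun c x => Subtype.ext (funext fun g => hφ.inj (by
         simp only [RingHom.id_apply, SetLike.val_smul, Pi.smul_apply, LinearMap.map_smul_of_tower,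
           (lift_cycle hφ (c • x).2).choose_spec.2, (lift_cycle hφ x.2).choose_spec.2])) } :
      (totDiff G).cycles (top G C) ⊥ j →ₗ[k] (G.diff U k).cycles ⊤ ⊥ j)

theorem augCycle_eq_mk (hφ : AugHyp C φ) {j : ℤ} (x : (totDiff G).cycles (top G C) ⊥ j)
    {u : G.ι → U} (hu : u ∈ (G.diff U k).cycles ⊤ ⊥ j) (h : ∀ g, φ (u g) = x.1 (g, none)) :
    augCycle G hφ j x = Submodule.Quotient.mk ⟨u, hu⟩ := by
  rw [augCycle, LinearMap.comp_apply, Submodule.mkQ_apply]
  congr 1
  refine Subtype.ext (funext fun g => hφ.inj ?_)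
  rw [h]
  exact (lift_cycle hφ x.2).choose_spec.2 g

theorem augCycle_surjective (hC : CompHyp K C) (ha : AcycHyp G C) (hφ : AugHyp C φ) (j : ℤ) :
    Function.Surjective (augCycle G hφ j) := by
  intro q
  obtain ⟨⟨u, hu⟩, rfl⟩ := Submodule.Quotient.mk_surjective _ q
  obtain ⟨x, hx, hxu⟩ := extend_cycle hC ha hφ hu
  exact ⟨⟨x, hx⟩, augCycle_eq_mk hφ _ hu fun g => (hxu g).symm⟩

theorem augCycle_ker (hC : CompHyp K C) (ha : AcycHyp G C) (hφ : AugHyp C φ) (j : ℤ) :
    LinearMap.ker (augCycle G hφ j) =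
      ((totDiff G).bdries (top G C) ⊥ j).comap (Submodule.subtype _) := by
  ext ⟨x, hx⟩
  obtain ⟨u, hu, hux⟩ := lift_cycle hφ hx
  rw [LinearMap.mem_ker, Submodule.mem_comap, Submodule.subtype_apply,
    augCycle_eq_mk hφ ⟨x, hx⟩ hu hux, Submodule.Quotient.mk_eq_zero, Submodule.mem_comap,
    Submodule.subtype_apply]
  obtain ⟨⟨h1, h2⟩, h3⟩ := hx
  rw [SetLike.mem_coe, Submodule.mem_comap, Submodule.mem_bot, totDiff_d] at h3
  simp only [Diff.bdries, Submodule.mem_sup]
  constructor
  · rintro ⟨a, ⟨v, ⟨-, v2⟩, rfl⟩, b, ⟨hb, -⟩, hab⟩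
    rw [SetLike.mem_coe, Submodule.mem_bot] at hb
    rw [hb, add_zero] at hab
    let y0 : Tot G := fun p => match p with
      | (g, none) => φ (v g)
      | (_, some _) => 0
    have m1 : y0 ∈ top G C := by
      rintro g (_ | ε)
      · rw [← hφ.range_eq]
        exact LinearMap.mem_range_self φ (v g)
      · exact Submodule.zero_mem _
    have m2 : y0 ∈ (totDiff G).deg (j + 1) := by
      rintro g (_ | ε) hg
      · simp [y0, v2 g (by simpa [cdeg] using hg)]
      · rfl
    have hlow : ∀ g e, cdeg n e < 1 → (x - dTot G y0) (g, e) = 0 := by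
      rintro g (_ | ε) he
      · rw [Pi.sub_apply, dTot_apply, delta_none, smul_zero, add_zero, sub_eq_zero, ← hux g,
          ← hab]
        exact map_dA φ v g
      · simp [cdeg] at he
    obtain ⟨y, y1, y2, -, y4⟩ := some_exact hC ha (n + 1) 1 le_rfl (by omega) j (x - dTot G y0)
      (Submodule.sub_mem _ h1 (top_stable hC _ m1))
      (Submodule.sub_mem _ h2 (by simpa [totDiff_d] using (totDiff G).d_deg _ _ m2)) hlow
      (by rw [map_sub, h3, dTot_dTot, sub_zero])
    refine ⟨x, ⟨y0 + y, ⟨Submodule.add_mem _ m1 y1, Submodule.add_mem _ m2 y2⟩, ?_⟩, 0,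
      ⟨Submodule.zero_mem _, Submodule.zero_mem _⟩, add_zero x⟩
    rw [totDiff_d, map_add, y4]
    abel
  · rintro ⟨a, ⟨y, ⟨y1, y2⟩, rfl⟩, b, ⟨hb, -⟩, hab⟩
    rw [SetLike.mem_coe, Submodule.mem_bot] at hb
    rw [hb, add_zero] at hab
    have hr : ∀ g, ∃ v, φ v = y (g, none) := fun g => by
      have := y1 g none
      rw [← hφ.range_eq] at this
      exact this
    choose v hv using hr
    refine ⟨_, ⟨v, ⟨trivial, fun g hg => hφ.inj ?_⟩, rfl⟩, 0,
      ⟨Submodule.zero_mem _, Submodule.zero_mem _⟩, ?_⟩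
    · rw [hv, map_zero]
      exact y2 g none (by simpa [cdeg] using hg)
    · rw [add_zero]
      funext h
      refine hφ.inj ?_
      change φ (G.dA U v h) = φ (u h)
      rw [map_dA, funext hv, hux h, ← hab, totDiff_d, dTot_apply, delta_none, smul_zero, add_zero]

variable (G) in
/-- The total complex has the homology of `G ⊗ U`. -/
def augEquiv (hC : CompHyp K C) (ha : AcycHyp G C) (hφ : AugHyp C φ) (j : ℤ) :
    (totDiff G).H (top G C) ⊥ j ≃ₗ[k] (G.diff U k).H ⊤ ⊥ j :=
  (Submodule.quotEquivOfEq _ _ (augCycle_ker hC ha hφ j).symm).trans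
    ((augCycle G hφ j).quotKerEquivOfSurjective (augCycle_surjective hC ha hφ j))

end Aug

end Vale.Agent.P202.Window
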