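import Vale.Agent.P202.Window.Push

/-!
# P202: homology of one level
-/

noncomputable section

namespace Vale.Agent.P202.Window

open Segre

variable {k : Type*} [Field k] {n : ℕ} [IsScalarTower k (Pw k n) (Lam k n)]
variable {G : FreeCx (Pw k n)} {K : ℕ} {C : Cov n → Submodule (Pw k n) (Lam k n)}

variable (G) in
/-- The rows of position `i`. -/
abbrev Row (i : ℕ) : Type := {g : G.ι // G.pos g = i}

variable (k n K) in
/-- The homology of one slice. -/
abbrev SliceH (t j : ℤ) : Type _ := (sliceDiff k n).H (slice k n K t) ⊥ j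

variable (G) in
/-- Taking the slice of a row. -/
def slotHom (g : G.ι) (t : ℤ) : Tot G →ₗ[k] (Cov n → Coef k n) where
  toFun x := slot G x g t
  map_add' x y := by
    funext e
    simp [slot]
  map_smul' c x := by
    funext e
    simp [slot]

omit [IsScalarTower k (Pw k n) (Lam k n)] in
theorem slotHom_apply (g : G.ι) (t : ℤ) (x : Tot G) : slotHom G g t x = slot G x g t := rfl

theorem slot_mem_cycles (hC : CompHyp K C) (hup : MatUp G K) (hlen : G.LengthLE (n + 1))
    {L j : ℤ} {x : Tot G}
    (hx : x ∈ (totDiff G).cycles (filt G K C L) (filt G K C (L + 1)) j)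
    (g : Row G (posOf n L)) :
    slot G x g.1 (degOf n K L) ∈
      (sliceDiff k n).cycles (slice k n K (degOf n K L)) ⊥ (j - posOf n L) := by
  obtain ⟨⟨h1, h2⟩, h3⟩ := hx
  have hd := slot_mem_deg h2 g.1 (degOf n K L)
  simp only [g.2] at hd
  refine ⟨⟨slot_mem_slice hC h1.1 g.1 _, hd⟩, ?_⟩
  rw [SetLike.mem_coe, Submodule.mem_comap, Submodule.mem_bot]
  exact slot_cycle hup h1 h3 ((level_eq_iff G K hlen g.1 _ L).2 ⟨g.2, rfl⟩)

variable (G) in
/-- The symbol of a relative cycle at level `L`. -/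
def symb (hC : CompHyp K C) (hup : MatUp G K) (hlen : G.LengthLE (n + 1)) (L j : ℤ) :
    (totDiff G).cycles (filt G K C L) (filt G K C (L + 1)) j →ₗ[k]
      (Row G (posOf n L) → SliceH k n K (degOf n K L) (j - posOf n L)) :=
  LinearMap.pi fun g =>
    (Submodule.mkQ _).comp (((slotHom G g.1 (degOf n K L)).comp (Submodule.subtype _)).codRestrict _
      fun x => slot_mem_cycles hC hup hlen x.2 g)

theorem symb_apply (hC : CompHyp K C) (hup : MatUp G K) (hlen : G.LengthLE (n + 1)) {L j : ℤ}
    (x : (totDiff G).cycles (filt G K C L) (filt G K C (L + 1)) j) (g : Row G (posOf n L)) :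
    symb G hC hup hlen L j x g =
      Submodule.Quotient.mk ⟨slot G x.1 g.1 (degOf n K L), slot_mem_cycles hC hup hlen x.2 g⟩ :=
  rfl

theorem symb_ker (hC : CompHyp K C) (hup : MatUp G K) (hlen : G.LengthLE (n + 1)) (L j : ℤ) :
    LinearMap.ker (symb G hC hup hlen L j) =
      ((totDiff G).bdries (filt G K C L) (filt G K C (L + 1)) j).comap (Submodule.subtype _) := by
  classical
  set i := posOf n L
  set t := degOf n K L
  have hlev : ∀ g, G.pos g = i → level G K g t = L := fun g hg =>
    (level_eq_iff G K hlen g t L).2 ⟨hg, rfl⟩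
  ext ⟨x, hx⟩
  obtain ⟨⟨h1, h2⟩, h3⟩ := hx
  rw [LinearMap.mem_ker, Submodule.mem_comap, Submodule.subtype_apply, funext_iff]
  simp only [symb_apply, Pi.zero_apply, Submodule.Quotient.mk_eq_zero, Submodule.mem_comap,
    Submodule.subtype_apply]
  constructor
  · intro h
    have key : ∀ g, ∃ y : Cov n → Coef k n, G.pos g = i →
        y ∈ slice k n K t ∧ y ∈ (sliceDiff k n).deg (j + 1 - i) ∧
        rsgn G g • delta k (Coef k n) y = slot G x g t := by
      intro g
      by_cases hg : G.pos g = i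
      · have := h ⟨g, hg⟩
        rw [Diff.bdries, Submodule.mem_sup] at this
        obtain ⟨a, ⟨y, ⟨y1, y2⟩, rfl⟩, b, ⟨hb, -⟩, hab⟩ := this
        rw [SetLike.mem_coe, Submodule.mem_bot] at hb
        rw [hb, add_zero] at hab
        refine ⟨rsgn G g • y, fun _ => ⟨zsmul_mem y1 _, zsmul_mem ?_ _, ?_⟩⟩
        · rwa [show j + 1 - (i : ℤ) = j - (i : ℤ) + 1 by ring]
        · rw [map_zsmul, smul_smul, rsgn, ← pow_add, ← two_mul, pow_mul, neg_one_sq, one_pow,
            one_smul]
          exact hab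
      · exact ⟨0, fun h => absurd h hg⟩
    choose c hc using key
    have m1 := ofSlots_mem_filt (G := G) hC (L := L) (c := c) fun g hg => (hc g hg).1
    have m2 : ofSlots G i t c ∈ (totDiff G).deg (j + 1) :=
      ofSlots_mem_deg fun g hg => (hc g hg).2.1
    rw [Diff.bdries, Submodule.mem_sup]
    refine ⟨_, ⟨_, ⟨m1, m2⟩, rfl⟩, x - dTot G (ofSlots G i t c), ⟨?_, ?_⟩, ?_⟩
    · refine mem_filt_succ hlen ((filt G K C L).sub_mem h1 (filt_stable hC hup L _ m1)) ?_
      intro g hg
      funext e
      change (x (g, e) - dTot G (ofSlots G i t c) (g, e)).coeff t = 0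
      rw [HahnSeries.coeff_sub, dTot_coeff hup m1.2 g e (hlev g hg).le, slot_ofSlots i t c hg]
      have := congrFun (hc g hg).2.2 e
      simp only [Pi.smul_apply, slot] at this
      rw [this, sub_self]
    · refine Submodule.sub_mem _ h2 ?_
      simpa [totDiff_d] using (totDiff G).d_deg _ _ m2
    · rw [totDiff_d]
      abel
  · intro h g
    rw [Diff.bdries, Submodule.mem_sup] at h
    obtain ⟨a, ⟨y, ⟨y1, y2⟩, rfl⟩, b, ⟨hb, -⟩, hab⟩ := h
    rw [Diff.bdries]
    refine Submodule.mem_sup_left ⟨rsgn G g.1 • slot G y g.1 t, ⟨?_, ?_⟩, ?_⟩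
    · exact zsmul_mem (slot_mem_slice hC y1.1 g.1 t) _
    · refine zsmul_mem ?_ _
      have := slot_mem_deg y2 g.1 t
      simp only [g.2] at this
      rwa [show j - (i : ℤ) + 1 = j + 1 - (i : ℤ) by ring]
    · rw [map_zsmul]
      funext e
      change rsgn G g.1 • delta k (Coef k n) (slot G y g.1 t) e = (x (g.1, e)).coeff t
      rw [← dTot_coeff hup y1.2 g.1 e (hlev g.1 g.2).le, ← hab, Pi.add_apply,
        HahnSeries.coeff_add, totDiff_d]
      have := congrFun (slot_eq_zero_of_mem hlen hb g.2) e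
      simp only [slot, Pi.zero_apply] at this
      rw [this, add_zero]

theorem symb_surjective (hC : CompHyp K C) (hup : MatUp G K) (hlen : G.LengthLE (n + 1))
    (L j : ℤ) : Function.Surjective (symb G hC hup hlen L j) := by
  classical
  intro v
  choose z hz using fun g => Submodule.Quotient.mk_surjective _ (v g)
  let c : G.ι → Cov n → Coef k n := fun g =>
    if h : G.pos g = posOf n L then (z ⟨g, h⟩).1 else 0
  have hc : ∀ g (h : G.pos g = posOf n L), c g = (z ⟨g, h⟩).1 := fun g h => dif_pos h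
  set w := ofSlots G (posOf n L) (degOf n K L) c with hw
  have m1 : w ∈ filt G K C L :=
    ofSlots_mem_filt hC fun g hg => by rw [hc g hg]; exact (z ⟨g, hg⟩).2.1.1
  have m2 : w ∈ (totDiff G).deg j :=
    ofSlots_mem_deg fun g hg => by rw [hc g hg]; exact (z ⟨g, hg⟩).2.1.2
  have m3 : dTot G w ∈ filt G K C (L + 1) := by
    refine mem_filt_succ hlen (filt_stable hC hup L _ m1) fun g hg => ?_
    funext e
    have hl := (level_eq_iff G K hlen g (degOf n K L) L).2 ⟨hg, rfl⟩
    change (dTot G w (g, e)).coeff _ = 0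
    rw [dTot_coeff hup m1.2 g e hl.le, hw, slot_ofSlots _ _ c hg, hc g hg]
    have h0 := (z ⟨g, hg⟩).2.2
    rw [SetLike.mem_coe, Submodule.mem_comap, Submodule.mem_bot] at h0
    change rsgn G g • (sliceDiff k n).d (z ⟨g, hg⟩).1 e = 0
    rw [h0, Pi.zero_apply, smul_zero]
  refine ⟨⟨w, ⟨m1, m2⟩, m3⟩, funext fun g => ?_⟩
  rw [symb_apply, ← hz g]
  congr 1
  refine Subtype.ext ?_
  change slot G w g.1 (degOf n K L) = (z g).1
  rw [hw, slot_ofSlots _ _ c g.2, hc g.1 g.2]

variable (G) in
/-- Homology of one level. -/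
def levelEquiv (hC : CompHyp K C) (hup : MatUp G K) (hlen : G.LengthLE (n + 1)) (L j : ℤ) :
    (totDiff G).H (filt G K C L) (filt G K C (L + 1)) j ≃ₗ[k]
      (Row G (posOf n L) → SliceH k n K (degOf n K L) (j - posOf n L)) :=
  (Submodule.quotEquivOfEq _ _ (symb_ker hC hup hlen L j).symm).trans
    ((symb G hC hup hlen L j).quotKerEquivOfSurjective (symb_surjective hC hup hlen L j))

theorem level_betti (hC : CompHyp K C) (hup : MatUp G K) (hlen : G.LengthLE (n + 1)) (L j : ℤ)
    [Module.Finite k (SliceH k n K (degOf n K L) (j - posOf n L))] :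
    (totDiff G).betti (filt G K C L) (filt G K C (L + 1)) j =
      G.rank (posOf n L) *
        (sliceDiff k n).betti (slice k n K (degOf n K L)) ⊥ (j - posOf n L) := by
  rw [Diff.betti, (levelEquiv G hC hup hlen L j).finrank_eq, Module.finrank_pi_fintype,
    Finset.sum_const, Finset.card_univ, Fintype.card_subtype, smul_eq_mul]
  rfl

theorem level_chi (hC : CompHyp K C) (hup : MatUp G K) (hlen : G.LengthLE (n + 1)) (L : ℤ)
    (hfin : ∀ j, Module.Finite k (SliceH k n K (degOf n K L) j)) :
    (totDiff G).chi (filt G K C L) (filt G K C (L + 1)) =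
      (-1) ^ posOf n L * (G.rank (posOf n L) : ℤ) *
        (sliceDiff k n).chi (slice k n K (degOf n K L)) ⊥ := by
  rw [Diff.chi, Diff.chi, mul_finsum]
  refine (finsum_eq_of_bijective (fun j : ℤ => j + posOf n L) (Equiv.addRight _).bijective ?_).symm
  intro j
  rw [level_betti hC hup hlen L (j + posOf n L)]
  rw [Int.negOnePow_add, add_sub_cancel_right]
  push_cast [Int.coe_negOnePow_natCast]
  ring

end Vale.Agent.P202.Window
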