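import Vale.Agent.P202.Window.Total

/-!
# P202: one level of the filtration

At the lowest level the total differential is the Čech differential of the slice.
-/

noncomputable section

namespace Vale.Agent.P202.Window

open Segre

variable {k : Type*} [Field k] {n : ℕ}

/-- The level of row position `i` and degree `t`. -/
def lev (n K i : ℕ) (t : ℤ) : ℤ := (t + (K : ℤ) * i) * ((n : ℤ) + 3) - i

/-- The row position of a level. -/
def posOf (n : ℕ) (L : ℤ) : ℕ := ((-L) % ((n : ℤ) + 3)).toNat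

/-- The degree of a level. -/
def degOf (n K : ℕ) (L : ℤ) : ℤ :=
  (L + (posOf n L : ℤ)) / ((n : ℤ) + 3) - (K : ℤ) * (posOf n L : ℤ)

theorem posOf_lt (n : ℕ) (L : ℤ) : posOf n L < n + 3 := by
  have h1 := Int.emod_lt_of_pos (-L) (show (0 : ℤ) < (n : ℤ) + 3 by omega)
  have h2 := Int.emod_nonneg (-L) (show ((n : ℤ) + 3) ≠ 0 by omega)
  simp only [posOf]
  omega

theorem lev_posOf_degOf (n K : ℕ) (L : ℤ) : lev n K (posOf n L) (degOf n K L) = L := by
  have h2 := Int.emod_nonneg (-L) (show ((n : ℤ) + 3) ≠ 0 by omega)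
  have hp : (posOf n L : ℤ) = (-L) % ((n : ℤ) + 3) := by simp [posOf, h2]
  have hd : ((n : ℤ) + 3) ∣ L + (posOf n L : ℤ) := by
    rw [hp]
    have := Int.dvd_sub_self_of_emod_eq (a := -L) (b := (n : ℤ) + 3) rfl
    simpa [sub_neg_eq_add, add_comm] using this
  simp only [lev, degOf, sub_add_cancel, Int.ediv_mul_cancel hd]
  ring

theorem posOf_lev {n K i : ℕ} (hi : i < n + 3) (t : ℤ) : posOf n (lev n K i t) = i := by
  simp only [posOf, lev]
  rw [neg_sub, show (i : ℤ) - (t + (K : ℤ) * i) * ((n : ℤ) + 3)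
      = i + (-(t + (K : ℤ) * i)) * ((n : ℤ) + 3) by ring,
    Int.add_mul_emod_self_right, Int.emod_eq_of_lt (by omega) (by omega)]
  simp

theorem degOf_lev {n K i : ℕ} (hi : i < n + 3) (t : ℤ) : degOf n K (lev n K i t) = t := by
  rw [degOf, posOf_lev hi, lev, sub_add_cancel, Int.mul_ediv_cancel _ (by omega)]
  ring

variable (G : FreeCx (Pw k n)) (K : ℕ)

theorem level_eq_lev (g : G.ι) (t : ℤ) : level G K g t = lev n K (G.pos g) t := rfl

theorem level_eq_iff (hlen : G.LengthLE (n + 1)) (g : G.ι) (t L : ℤ) :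
    level G K g t = L ↔ G.pos g = posOf n L ∧ t = degOf n K L := by
  have hg : G.pos g < n + 3 := lt_of_le_of_lt (hlen g) (by omega)
  constructor
  · rintro rfl
    rw [level_eq_lev, posOf_lev hg, degOf_lev hg]
    exact ⟨rfl, rfl⟩
  · rintro ⟨h1, rfl⟩
    rw [level_eq_lev, h1, lev_posOf_degOf]

/-- The entries raise degrees by at least `K`. -/
def MatUp : Prop :=
  ∀ (h g : G.ι) (t : ℤ) (F : Lam k n),
    (∀ t', t' ≤ t - K → F.coeff t' = 0) → (G.mat h g • F).coeff t = 0

variable {G K}

/-- Membership in the components is coefficientwise. -/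
def CompHyp (K : ℕ) (C : Cov n → Submodule (Pw k n) (Lam k n)) : Prop :=
  ∀ e (f : Lam k n), f ∈ C e ↔ f ∈ compSet k n K e

theorem dA_coeff_eq_zero (hup : MatUp G K) {x : Tot G} {L : ℤ}
    (hx : ∀ g e t, level G K g t < L → (x (g, e)).coeff t = 0) (h : G.ι) (e : Cov n) {t : ℤ}
    (ht : level G K h t ≤ L) :
    (G.dA (Lam k n) (fun g => x (g, e)) h).coeff t = 0 := by
  rw [FreeCx.dA_apply, HahnSeries.coeff_sum]
  refine Finset.sum_eq_zero fun g _ => ?_
  by_cases hm : G.mat h g = 0
  · simp [hm]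
  · refine hup h g t _ fun t' ht' => hx g e t' ?_
    exact lt_of_lt_of_le (level_step G K (G.mat_pos h g hm) (by omega)) ht

theorem dTot_coeff (hup : MatUp G K) {x : Tot G} {L : ℤ}
    (hx : ∀ g e t, level G K g t < L → (x (g, e)).coeff t = 0) (h : G.ι) (e : Cov n) {t : ℤ}
    (ht : level G K h t ≤ L) :
    (dTot G x (h, e)).coeff t = rsgn G h • delta k (Coef k n) (slot G x h t) e := by
  rw [dTot_apply, HahnSeries.coeff_add, dA_coeff_eq_zero hup hx h e ht, zero_add,
    HahnSeries.coeff_smul, slot_delta_part]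

theorem rsgn_smul_eq_zero {M : Type*} [AddCommGroup M] (g : G.ι) {x : M} :
    rsgn G g • x = 0 ↔ x = 0 := by
  rcases neg_one_pow_eq_or ℤ (G.pos g) with h | h <;> simp [rsgn, h]

theorem allowed_none_some {t : ℤ} {α : Fin n → ℤ} (h : allowed n K t α none)
    (ε : Fin n → Fin 3) : allowed n K t α (some ε) :=
  fun a => ⟨fun _ => (h a).2, fun _ => (h a).1⟩

theorem allowed_update {t : ℤ} {α : Fin n → ℤ} {ε : Fin n → Fin 3} {a : Fin n} (ha : ε a = 2)
    {v : Fin 3} (h : allowed n K t α (some (Function.update ε a v))) :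
    allowed n K t α (some ε) := by
  intro b
  have hb := h b
  by_cases hba : b = a
  · subst hba
    simp [ha]
  · simpa [Function.update_of_ne hba] using hb

variable {C : Cov n → Submodule (Pw k n) (Lam k n)}

theorem comp_le_of_allowed (hC : CompHyp K C) {e e' : Cov n}
    (h : ∀ t α, allowed n K t α e' → allowed n K t α e) : C e' ≤ C e :=
  fun f hf => (hC e f).2 fun t α hne => h t α ((hC e' f).1 hf t α hne)

theorem delta_mem (hC : CompHyp K C) {f : Cov n → Lam k n} (hf : ∀ e, f e ∈ C e) (e : Cov n) :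
    delta k (Lam k n) f e ∈ C e := by
  cases e with
  | none => simp [delta_none]
  | some ε =>
    rw [delta_some]
    refine (C _).add_mem ?_ ((C _).sum_mem fun a ha => zsmul_mem ?_ _)
    · split_ifs
      · exact comp_le_of_allowed hC (fun t α h => allowed_none_some h ε) (hf none)
      · exact (C _).zero_mem
    · have ha2 : ε a = 2 := (Finset.mem_filter.1 ha).2
      exact (C _).sub_mem
        (comp_le_of_allowed hC (fun t α h => allowed_update ha2 h) (hf _))
        (comp_le_of_allowed hC (fun t α h => allowed_update ha2 h) (hf _))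

section Pieces

variable [IsScalarTower k (Pw k n) (Lam k n)]

theorem top_stable (hC : CompHyp K C) : (totDiff G).Stable (top G C) := by
  intro x hx h e
  rw [totDiff_d, dTot_apply]
  refine (C e).add_mem ?_ (zsmul_mem (delta_mem hC (fun e' => hx h e') e) _)
  rw [FreeCx.dA_apply]
  exact (C e).sum_mem fun g _ => (C e).smul_mem _ (hx g e)

theorem filt_stable (hC : CompHyp K C) (hup : MatUp G K) (L : ℤ) :
    (totDiff G).Stable (filt G K C L) := by
  intro x hx
  refine ⟨top_stable hC x hx.1, fun h e t ht => ?_⟩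
  rw [totDiff_d, dTot_coeff hup hx.2 h e ht.le]
  have : slot G x h t = 0 := funext fun e' => hx.2 h e' t ht
  rw [this, map_zero, Pi.zero_apply, smul_zero]

theorem slot_mem_slice (hC : CompHyp K C) {x : Tot G} (hx : x ∈ top G C) (g : G.ι) (t : ℤ) :
    slot G x g t ∈ slice k n K t :=
  fun e α h => (hC e _).1 (hx g e) t α h

theorem slot_mem_deg {x : Tot G} {j : ℤ} (hx : x ∈ (totDiff G).deg j) (g : G.ι) (t : ℤ) :
    slot G x g t ∈ (sliceDiff k n).deg (j - G.pos g) := by
  intro e he
  simp [slot, hx g e (by omega)]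

/-- The lowest slice of a relative cycle is a cycle. -/
theorem slot_cycle (hup : MatUp G K) {x : Tot G} {L : ℤ} (hx : x ∈ filt G K C L)
    (hdx : dTot G x ∈ filt G K C (L + 1)) {g : G.ι} {t : ℤ} (ht : level G K g t = L) :
    delta k (Coef k n) (slot G x g t) = 0 := by
  funext e
  have h1 := hdx.2 g e t (by omega)
  rw [dTot_coeff hup hx.2 g e ht.le, rsgn_smul_eq_zero] at h1
  exact h1

variable (G) in
/-- The family concentrated in degree `t` and row position `i`. -/
def ofSlots (i : ℕ) (t : ℤ) (c : G.ι → Cov n → Coef k n) : Tot G :=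
  fun p => if G.pos p.1 = i then HahnSeries.single t (c p.1 p.2) else 0

theorem ofSlots_coeff (i : ℕ) (t : ℤ) (c : G.ι → Cov n → Coef k n) (g : G.ι) (e : Cov n)
    (s : ℤ) :
    (ofSlots G i t c (g, e)).coeff s = if G.pos g = i ∧ s = t then c g e else 0 := by
  simp only [ofSlots]
  by_cases h1 : G.pos g = i
  · rw [if_pos h1]
    by_cases h2 : s = t
    · subst h2
      simp [h1]
    · rw [HahnSeries.coeff_single_of_ne h2, if_neg (by simp [h2])]
  · simp [h1]

theorem ofSlots_mem_top (hC : CompHyp K C) {i : ℕ} {t : ℤ} {c : G.ι → Cov n → Coef k n}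
    (hc : ∀ g, G.pos g = i → c g ∈ slice k n K t) : ofSlots G i t c ∈ top G C := by
  intro g e
  rw [hC]
  intro s α h
  rw [ofSlots_coeff] at h
  split_ifs at h with hh
  · obtain ⟨h1, rfl⟩ := hh
    exact hc g h1 e α h
  · simp at h

theorem ofSlots_mem_filt (hC : CompHyp K C) {L : ℤ} {c : G.ι → Cov n → Coef k n}
    (hc : ∀ g, G.pos g = posOf n L → c g ∈ slice k n K (degOf n K L)) :
    ofSlots G (posOf n L) (degOf n K L) c ∈ filt G K C L := by
  refine ⟨ofSlots_mem_top hC hc, fun g e t ht => ?_⟩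
  rw [ofSlots_coeff]
  split_ifs with h
  · obtain ⟨h1, rfl⟩ := h
    rw [level_eq_lev, h1, lev_posOf_degOf] at ht
    omega
  · rfl

theorem ofSlots_mem_deg {i : ℕ} {t : ℤ} {c : G.ι → Cov n → Coef k n} {j : ℤ}
    (hc : ∀ g, G.pos g = i → c g ∈ (sliceDiff k n).deg (j - i)) :
    ofSlots G i t c ∈ (totDiff G).deg j := by
  intro g e he
  simp only [ofSlots]
  split_ifs with h
  · rw [hc g h e (by omega)]
    simp
  · rfl

theorem slot_ofSlots (i : ℕ) (t : ℤ) (c : G.ι → Cov n → Coef k n) {g : G.ι}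
    (hg : G.pos g = i) : slot G (ofSlots G i t c) g t = c g := by
  funext e
  simp [slot, ofSlots_coeff, hg]

/-- A family with vanishing slices at level `L` lies one level higher. -/
theorem mem_filt_succ (hlen : G.LengthLE (n + 1)) {x : Tot G} {L : ℤ}
    (hx : x ∈ filt G K C L)
    (h : ∀ g, G.pos g = posOf n L → slot G x g (degOf n K L) = 0) :
    x ∈ filt G K C (L + 1) := by
  refine ⟨hx.1, fun g e t ht => ?_⟩
  rcases (Int.lt_add_one_iff.1 ht).lt_or_eq with h1 | h1
  · exact hx.2 g e t h1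
  · obtain ⟨hg, rfl⟩ := (level_eq_iff G K hlen g t L).1 h1
    exact congrFun (h g hg) e

theorem slot_eq_zero_of_mem (hlen : G.LengthLE (n + 1)) {x : Tot G} {L : ℤ}
    (hx : x ∈ filt G K C (L + 1)) {g : G.ι} (hg : G.pos g = posOf n L) :
    slot G x g (degOf n K L) = 0 := by
  funext e
  refine hx.2 g e _ ?_
  rw [(level_eq_iff G K hlen g _ L).2 ⟨hg, rfl⟩]
  omega

/-- The slice complexes relevant at level `L` have no homology in total position `j`. -/
def SliceZero (K : ℕ) (G : FreeCx (Pw k n)) (L j : ℤ) : Prop :=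
  (∃ g, G.pos g = posOf n L) → ∀ z, z ∈ slice k n K (degOf n K L) →
    z ∈ (sliceDiff k n).deg (j - posOf n L) → delta k (Coef k n) z = 0 →
    ∃ y, y ∈ slice k n K (degOf n K L) ∧ y ∈ (sliceDiff k n).deg (j + 1 - posOf n L) ∧
      delta k (Coef k n) y = z

/-- Elimination of the lowest level. -/
theorem elim (hC : CompHyp K C) (hup : MatUp G K) (hlen : G.LengthLE (n + 1)) {x : Tot G}
    {L j : ℤ} (hx : x ∈ filt G K C L) (hj : x ∈ (totDiff G).deg j)
    (hdx : dTot G x ∈ filt G K C (L + 1)) (hz : SliceZero K G L j) :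
    ∃ c : G.ι → Cov n → Coef k n,
      ofSlots G (posOf n L) (degOf n K L) c ∈ filt G K C L ∧
      ofSlots G (posOf n L) (degOf n K L) c ∈ (totDiff G).deg (j + 1) ∧
      x - dTot G (ofSlots G (posOf n L) (degOf n K L) c) ∈ filt G K C (L + 1) := by
  classical
  set i := posOf n L with hi
  set t := degOf n K L with ht
  have key : ∀ g, ∃ y : Cov n → Coef k n, G.pos g = i →
      y ∈ slice k n K t ∧ y ∈ (sliceDiff k n).deg (j + 1 - i) ∧
      rsgn G g • delta k (Coef k n) y = slot G x g t := by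
    intro g
    by_cases hg : G.pos g = i
    · have hl : level G K g t = L := (level_eq_iff G K hlen g t L).2 ⟨hg, ht⟩
      have hd : slot G x g t ∈ (sliceDiff k n).deg (j - i) := by
        rw [← hg]
        exact slot_mem_deg hj g t
      obtain ⟨y, y1, y2, y3⟩ := hz ⟨g, hg⟩ _ (slot_mem_slice hC hx.1 g t) hd
        (slot_cycle hup hx hdx hl)
      refine ⟨rsgn G g • y, fun _ => ⟨zsmul_mem y1 _, zsmul_mem y2 _, ?_⟩⟩
      rw [map_zsmul, y3, smul_smul, rsgn, ← pow_add, ← two_mul, pow_mul]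
      simp
    · exact ⟨0, fun h => absurd h hg⟩
  choose c hc using key
  have m1 := ofSlots_mem_filt (G := G) hC (L := L) (c := c) fun g hg => (hc g hg).1
  refine ⟨c, m1, ofSlots_mem_deg fun g hg => (hc g hg).2.1, ?_⟩
  refine mem_filt_succ hlen ((filt G K C L).sub_mem hx (filt_stable hC hup L _ m1)) ?_
  intro g hg
  funext e
  have hl : level G K g t = L := (level_eq_iff G K hlen g t L).2 ⟨hg, ht⟩
  change (x (g, e) - dTot G (ofSlots G i t c) (g, e)).coeff t = 0
  rw [HahnSeries.coeff_sub, dTot_coeff hup m1.2 g e hl.le, slot_ofSlots i t c hg]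
  have := congrFun (hc g hg).2.2 e
  simp only [Pi.smul_apply, slot] at this
  rw [this, sub_self]

end Pieces

end Vale.Agent.P202.Window
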