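import Vale.Agent.P202.Window.Local

/-!
# P202: pushing relative cycles up through the filtration
-/

noncomputable section

namespace Vale.Agent.P202.Window

open Segre

variable {k : Type*} [Field k] {n : ℕ} [IsScalarTower k (Pw k n) (Lam k n)]
variable {G : FreeCx (Pw k n)} {K : ℕ} {C : Cov n → Submodule (Pw k n) (Lam k n)}

/-- Finitely many steps of elimination. -/
theorem push (hC : CompHyp K C) (hup : MatUp G K) (hlen : G.LengthLE (n + 1)) {j : ℤ} :
    ∀ (N : ℕ) {x : Tot G} {L : ℤ}, x ∈ filt G K C L → x ∈ (totDiff G).deg j →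
      dTot G x ∈ filt G K C (L + N) → (∀ L', L ≤ L' → L' < L + N → SliceZero K G L' j) →
      ∃ y, y ∈ filt G K C L ∧ y ∈ (totDiff G).deg (j + 1) ∧
        x - dTot G y ∈ filt G K C (L + N) := by
  intro N
  induction N with
  | zero =>
    intro x L hx _ _ _
    exact ⟨0, Submodule.zero_mem _, Submodule.zero_mem _, by simpa using hx⟩
  | succ N ih =>
    intro x L hx hj hdx hz
    have hle : L + 1 ≤ L + ((N + 1 : ℕ) : ℤ) := by omega
    obtain ⟨c, c1, c2, c3⟩ := elim hC hup hlen hx hj (filt_anti G K C hle hdx)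
      (hz L le_rfl (by omega))
    set w := ofSlots G (posOf n L) (degOf n K L) c
    have hj' : x - dTot G w ∈ (totDiff G).deg j := by
      refine Submodule.sub_mem _ hj ?_
      have := (totDiff G).d_deg _ _ c2
      simpa [totDiff_d] using this
    have hd' : dTot G (x - dTot G w) = dTot G x := by rw [map_sub, dTot_dTot, sub_zero]
    have heq : L + 1 + (N : ℤ) = L + ((N + 1 : ℕ) : ℤ) := by push_cast; ring
    obtain ⟨y, y1, y2, y3⟩ := ih c3 hj' (by rw [hd', heq]; exact hdx)
      fun L' h1 h2 => hz L' (by omega) (by omega)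
    refine ⟨w + y, Submodule.add_mem _ c1 (filt_anti G K C (by omega) y1),
      Submodule.add_mem _ c2 y2, ?_⟩
    rw [map_add, ← sub_sub, ← heq]
    exact y3

/-- Every element lies in some step of the filtration. -/
theorem exists_mem_filt {x : Tot G} (hx : x ∈ top G C) : ∃ L, x ∈ filt G K C L := by
  refine ⟨-∑ p : G.ι × Cov n, |level G K p.1 (x p).order|, hx, fun g e t ht => ?_⟩
  refine HahnSeries.coeff_eq_zero_of_lt_order ?_
  by_contra hc
  have h1 : level G K g (x (g, e)).order ≤ level G K g t := by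
    rcases (not_lt.1 hc).eq_or_lt with h | h
    · rw [h]
    · exact (level_strictMono G K g h).le
  have h2 : |level G K g (x (g, e)).order| ≤ ∑ p : G.ι × Cov n, |level G K p.1 (x p).order| :=
    Finset.single_le_sum (f := fun p : G.ι × Cov n => |level G K p.1 (x p).order|)
      (fun _ _ => abs_nonneg _) (Finset.mem_univ (g, e))
  linarith [neg_abs_le (level G K g (x (g, e)).order)]

theorem filt_ext (x : Tot G) (h : ∀ L, x ∈ filt G K C L) : x = 0 := by
  funext ⟨g, e⟩
  refine HahnSeries.ext (funext fun t => ?_)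
  simpa using (h (level G K g t + 1)).2 g e t (by omega)

omit [IsScalarTower k (Pw k n) (Lam k n)] in
/-- A degree bound below a level. -/
theorem level_lt_of_lt (g : G.ι) {t L : ℤ} (ht : t < -|L| - (K : ℤ) * G.pos g) :
    level G K g t < L := by
  have h1 : (t + (K : ℤ) * G.pos g) * ((n : ℤ) + 3) ≤ (-|L| - 1) * ((n : ℤ) + 3) :=
    mul_le_mul_of_nonneg_right (by omega) (by omega)
  have h2 : 0 ≤ |L| * ((n : ℤ) + 2) := mul_nonneg (abs_nonneg _) (by omega)
  simp only [level]
  nlinarith [neg_abs_le L]

/-- Infinitely many steps: a cycle with acyclic slices from its level on is a boundary. -/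
theorem push_inf (hC : CompHyp K C) (hup : MatUp G K) (hlen : G.LengthLE (n + 1)) {j L : ℤ}
    {x : Tot G} (hx : x ∈ filt G K C L) (hj : x ∈ (totDiff G).deg j) (hdx : dTot G x = 0)
    (hz : ∀ L', L ≤ L' → SliceZero K G L' j) :
    ∃ y, y ∈ filt G K C L ∧ y ∈ (totDiff G).deg (j + 1) ∧ dTot G y = x := by
  classical
  let P : ℕ → Tot G → Prop := fun m z =>
    z ∈ filt G K C (L + m) ∧ z ∈ (totDiff G).deg j ∧ dTot G z = 0
  have step : ∀ (m : ℕ) (z : Tot G), ∃ c : G.ι → Cov n → Coef k n, P m z →
      ofSlots G (posOf n (L + m)) (degOf n K (L + m)) c ∈ filt G K C (L + m) ∧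
      ofSlots G (posOf n (L + m)) (degOf n K (L + m)) c ∈ (totDiff G).deg (j + 1) ∧
      P (m + 1) (z - dTot G (ofSlots G (posOf n (L + m)) (degOf n K (L + m)) c)) := by
    intro m z
    by_cases h : P m z
    · obtain ⟨c, c1, c2, c3⟩ := elim hC hup hlen h.1 h.2.1
        (by rw [h.2.2]; exact Submodule.zero_mem _) (hz _ (by omega))
      refine ⟨c, fun _ => ⟨c1, c2, ?_, ?_, ?_⟩⟩
      · simpa [add_assoc] using c3
      · refine Submodule.sub_mem _ h.2.1 ?_
        simpa [totDiff_d] using (totDiff G).d_deg _ _ c2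
      · rw [map_sub, h.2.2, dTot_dTot, sub_zero]
    · exact ⟨0, fun h' => absurd h' h⟩
  choose cf hcf using step
  let w : ℕ → Tot G → Tot G := fun m z =>
    ofSlots G (posOf n (L + m)) (degOf n K (L + m)) (cf m z)
  let xs : ℕ → Tot G := fun m => Nat.rec x (fun i z => z - dTot G (w i z)) m
  have hxs : ∀ m, P m (xs m) := by
    intro m
    induction m with
    | zero => exact ⟨by simpa [xs] using hx, by simpa [xs] using hj, by simpa [xs] using hdx⟩
    | succ m ih => exact (hcf m _ ih).2.2
  let ys : ℕ → Tot G := fun m => w m (xs m)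
  let idx : G.ι → ℤ → ℕ := fun g t => (level G K g t - L).toNat
  let yc : G.ι → Cov n → ℤ → Coef k n := fun g e t =>
    if L ≤ level G K g t then (ys (idx g t) (g, e)).coeff t else 0
  have hb : ∀ g e, BddBelow (Function.support (yc g e)) := by
    intro g e
    refine ⟨-|L| - (K : ℤ) * G.pos g, fun t ht => ?_⟩
    by_contra hc
    refine ht ?_
    have := level_lt_of_lt g (not_le.1 hc)
    simp only [yc]
    rw [if_neg (by omega)]
  let y : Tot G := fun p => HahnSeries.ofSuppBddBelow (yc p.1 p.2) (hb p.1 p.2)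
  have hy : ∀ g e t, (y (g, e)).coeff t =
      if L ≤ level G K g t then (ys (idx g t) (g, e)).coeff t else 0 := fun g e t => by
    simp [y, yc]
  have hy1 : y ∈ filt G K C L := by
    refine ⟨fun g e => (hC e _).2 fun t α h => ?_, fun g e t ht => ?_⟩
    · rw [hy] at h
      split_ifs at h with hh
      · exact (hC e _).1 ((hcf _ _ (hxs _)).1.1 g e) t α h
      · simp at h
    · rw [hy, if_neg (by omega)]
  have hy2 : y ∈ (totDiff G).deg (j + 1) := by
    intro g e he
    refine HahnSeries.ext (funext fun t => ?_)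
    rw [hy]
    split_ifs
    · simp only [ys, w]
      rw [(hcf _ _ (hxs _)).2.1 g e he]
    · simp
  -- the partial sums
  have hsum : ∀ M : ℕ, y - ∑ m ∈ Finset.range M, ys m ∈ filt G K C (L + M) := by
    intro M
    refine ⟨fun g e => ?_, fun g e t ht => ?_⟩
    · refine (C e).sub_mem (hy1.1 g e) ?_
      rw [Finset.sum_apply]
      exact (C e).sum_mem fun m _ => (hcf _ _ (hxs _)).1.1 g e
    · rw [Pi.sub_apply, Finset.sum_apply, HahnSeries.coeff_sub, HahnSeries.coeff_sum, hy]
      have hne : ∀ m : ℕ, level G K g t ≠ L + m → (ys m (g, e)).coeff t = 0 := by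
        intro m hm
        simp only [ys, w, ofSlots_coeff]
        refine if_neg fun h => hm ?_
        exact (level_eq_iff G K hlen g t _).2 h
      by_cases hl : L ≤ level G K g t
      · rw [if_pos hl, Finset.sum_eq_single (idx g t), sub_self]
        · intro m _ hm
          exact hne m fun h => hm (by simp only [idx]; omega)
        · intro hm
          refine absurd (Finset.mem_range.2 ?_) hm
          simp only [idx]
          omega
      · rw [if_neg hl, Finset.sum_eq_zero (fun m _ => hne m (by omega)), sub_self]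
  have hxM : ∀ M : ℕ, xs M = x - dTot G (∑ m ∈ Finset.range M, ys m) := by
    intro M
    induction M with
    | zero => simp [xs]
    | succ M ih =>
      rw [Finset.sum_range_succ, map_add, ← sub_sub, ← ih]
  refine ⟨y, hy1, hy2, sub_eq_zero.1 (filt_ext (G := G) (K := K) (C := C) _ fun L' => ?_)⟩
  obtain ⟨M, hM⟩ : ∃ M : ℕ, L' ≤ L + M := ⟨(L' - L).toNat, by omega⟩
  refine filt_anti G K C hM ?_
  have e : dTot G y - x = dTot G (y - ∑ m ∈ Finset.range M, ys m) - xs M := by
    rw [hxM, map_sub]
    abel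
  rw [e]
  exact Submodule.sub_mem _ (filt_stable hC hup _ _ (hsum M)) (hxs M).1

end Vale.Agent.P202.Window
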