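import Vale.Agent.P202.Window.Graded

/-!
# P202: where the slices have homology
-/

noncomputable section

namespace Vale.Agent.P202.Window

open Segre

variable {k : Type*} [Field k] {n : ℕ}

/-- The monomial homology of the Segre slices. -/
structure SliceHyp (k : Type*) [Field k] (n K : ℕ) : Prop where
  finite : ∀ t j, Module.Finite k (SliceH k n K t j)
  vanish : ∀ t j, Subsingleton (SliceH k n K t j) ∨
    ∃ p : ℕ, 1 ≤ p ∧ j = -((p : ℤ) + 1) ∧ (∀ b : Fin n, b.val < p → t + (b.val : ℤ) * K ≤ -1) ∧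
      ∀ b : Fin n, p ≤ b.val → 1 ≤ t + (b.val : ℤ) * K
  chi : ∀ t, (sliceDiff k n).chi (slice k n K t) ⊥ = if t ≤ 0 then -pFun n K t else 0

theorem cdeg_le (e : Cov n) : cdeg n e ≤ n + 1 := by
  cases e with
  | none => simp [cdeg]
  | some ε =>
    have := Finset.card_filter_le (Finset.univ : Finset (Fin n)) (fun a => ε a = 2)
    simp only [cdeg, twos, Finset.card_univ, Fintype.card_fin] at this ⊢
    omega

theorem sliceDeg_eq_bot {j : ℤ} (hj : j < -((n : ℤ) + 1)) {z : Cov n → Coef k n}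
    (hz : z ∈ (sliceDiff k n).deg j) : z = 0 :=
  funext fun e => hz e (by have := cdeg_le e; omega)

theorem lev_ge_iff {K i : ℕ} (hi : i < n + 3) (t M : ℤ) :
    M * ((n : ℤ) + 3) + 1 ≤ lev n K i t ↔ M + 1 ≤ t + (K : ℤ) * i := by
  simp only [lev]
  constructor
  · intro h
    by_contra hc
    have h2 : (t + (K : ℤ) * i) * ((n : ℤ) + 3) ≤ M * ((n : ℤ) + 3) :=
      mul_le_mul_of_nonneg_right (by omega) (by omega)
    omega
  · intro h
    have h2 : (M + 1) * ((n : ℤ) + 3) ≤ (t + (K : ℤ) * i) * ((n : ℤ) + 3) :=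
      mul_le_mul_of_nonneg_right h (by omega)
    have h3 : (i : ℤ) < (n : ℤ) + 3 := by exact_mod_cast hi
    rw [add_mul, one_mul] at h2
    omega

/-- The first level above the window. -/
def levWin (n K : ℕ) : ℤ := (K : ℤ) * ((n : ℤ) + 3) + 1

/-- A level above which every slice is exact. -/
def levTop (n K : ℕ) : ℤ := (((n + 2) * K : ℕ) : ℤ) * ((n : ℤ) + 3) + 1

theorem levWin_le_levTop (n K : ℕ) : levWin n K ≤ levTop n K := by
  have : (K : ℤ) * ((n : ℤ) + 3) ≤ (((n + 2) * K : ℕ) : ℤ) * ((n : ℤ) + 3) := by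
    refine mul_le_mul_of_nonneg_right ?_ (by omega)
    exact_mod_cast Nat.le_mul_of_pos_left K (by omega)
  simp only [levWin, levTop]
  omega

variable {K : ℕ} {G : FreeCx (Pw k n)}

/-- The general way of getting `SliceZero`. -/
theorem sliceZero_of (H : SliceHyp k n K) (hlen : G.LengthLE (n + 1)) {L j : ℤ}
    (h : ∀ i p : ℕ, ∀ t : ℤ, lev n K i t = L → i ≤ n + 1 → 1 ≤ p → p ≤ n →
      j = (i : ℤ) - ((p : ℤ) + 1) → (∀ b : Fin n, b.val < p → t + (b.val : ℤ) * K ≤ -1) →
      (∀ b : Fin n, p ≤ b.val → 1 ≤ t + (b.val : ℤ) * K) → False) :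
    SliceZero K G L j := by
  rintro ⟨g, hg⟩ z z1 z2 z3
  rcases H.vanish (degOf n K L) (j - posOf n L) with hsub | ⟨p, hp1, hp2, hp3, hp4⟩
  · have hz : z ∈ (sliceDiff k n).cycles (slice k n K (degOf n K L)) ⊥ (j - posOf n L) := by
      refine ⟨⟨z1, z2⟩, ?_⟩
      rw [SetLike.mem_coe, Submodule.mem_comap, Submodule.mem_bot]
      exact z3
    have h0 := (Submodule.Quotient.mk_eq_zero
      (((sliceDiff k n).bdries (slice k n K (degOf n K L)) ⊥ (j - posOf n L)).comap
        (Submodule.subtype _)) (x := (⟨z, hz⟩ :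
          (sliceDiff k n).cycles (slice k n K (degOf n K L)) ⊥ (j - posOf n L)))).1
        (hsub.elim _ _)
    rw [Submodule.mem_comap, Submodule.subtype_apply, Diff.bdries, Submodule.mem_sup] at h0
    obtain ⟨a, ⟨y, ⟨y1, y2⟩, rfl⟩, b, ⟨hb, -⟩, hab⟩ := h0
    rw [SetLike.mem_coe, Submodule.mem_bot] at hb
    refine ⟨y, y1, ?_, by rw [hb, add_zero] at hab; exact hab⟩
    rwa [show j + 1 - (posOf n L : ℤ) = j - posOf n L + 1 by ring]
  · by_cases hpn : p ≤ n
    · exact (h _ p _ (lev_posOf_degOf n K L) (by rw [← hg]; exact hlen g) hp1 hpn (by omega)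
        hp3 hp4).elim
    · refine ⟨0, Submodule.zero_mem _, Submodule.zero_mem _, ?_⟩
      rw [map_zero, sliceDeg_eq_bot (by omega) z2]

/-- Above the window there is no homology in negative positions. -/
theorem sliceZero_neg (H : SliceHyp k n K) (hn : 1 ≤ n) (hlen : G.LengthLE (n + 1)) {L j : ℤ}
    (hL : levWin n K ≤ L) (hj : j < 0) : SliceZero K G L j := by
  refine sliceZero_of H hlen fun i p t hl hi hp1 hpn hjp hlo _ => ?_
  rw [← hl, levWin, lev_ge_iff (by omega)] at hL
  rcases Nat.eq_zero_or_pos i with h0 | h0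
  · subst h0
    have h' := hlo ⟨0, by omega⟩ (by simp only; omega)
    simp only [CharP.cast_eq_zero, mul_zero, add_zero, zero_mul] at h' hL
    omega
  · obtain ⟨b, rfl⟩ := Nat.exists_eq_succ_of_ne_zero h0.ne'
    have h' := hlo ⟨b, by omega⟩ (by simp only; omega)
    simp only at h'
    push_cast at hL
    linarith

/-- Far above the window there is no homology. -/
theorem sliceZero_top (H : SliceHyp k n K) (hn : 1 ≤ n) (hlen : G.LengthLE (n + 1)) {L : ℤ}
    (j : ℤ) (hL : levTop n K ≤ L) : SliceZero K G L j := by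
  refine sliceZero_of H hlen fun i p t hl hi hp1 _ _ hlo _ => ?_
  rw [← hl, levTop, lev_ge_iff (by omega)] at hL
  have h' := hlo ⟨0, by omega⟩ (by simp only; omega)
  simp only [CharP.cast_eq_zero, zero_mul, add_zero] at h'
  have h2 : (K : ℤ) * i ≤ (K : ℤ) * ((n : ℤ) + 1) :=
    mul_le_mul_of_nonneg_left (by exact_mod_cast hi) (by positivity)
  push_cast at hL
  nlinarith

/-- Below the window there is no homology in positive positions. -/
theorem sliceZero_pos (H : SliceHyp k n K) (hK : 1 ≤ K) (hlen : G.LengthLE (n + 1)) {L j : ℤ}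
    (hL : L < levWin n K) (hj : 1 ≤ j) : SliceZero K G L j := by
  refine sliceZero_of H hlen fun i p t hl hi hp1 _ hjp _ hhi => ?_
  rw [← hl, levWin, ← not_le, lev_ge_iff (by omega)] at hL
  have h' := hhi ⟨p, by omega⟩ (by simp)
  simp only at h'
  have h2 : (K : ℤ) * ((p : ℤ) + 2) ≤ (K : ℤ) * i :=
    mul_le_mul_of_nonneg_left (by omega) (by positivity)
  nlinarith

end Vale.Agent.P202.Window
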