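import Vale.Agent.P202.Window.Slices

/-!
# P202: vanishing for the window pairs
-/

noncomputable section

namespace Vale.Agent.P202

/-- A quotient homology vanishes if every cycle is a boundary. -/
theorem Diff.subsingleton_H {k M : Type*} [CommRing k] [AddCommGroup M] [Module k M]
    (D : Diff k M) {X Y : Submodule k M} {j : ℤ}
    (h : ∀ x ∈ D.cycles X Y j, x ∈ D.bdries X Y j) : Subsingleton (D.H X Y j) := by
  refine Submodule.Quotient.subsingleton_iff.2 (eq_top_iff.2 fun x _ => ?_)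
  exact h x.1 x.2

namespace Window

open Segre

variable {k : Type*} [Field k] {n : ℕ} [IsScalarTower k (Pw k n) (Lam k n)]
variable {G : FreeCx (Pw k n)} {K : ℕ} {C : Cov n → Submodule (Pw k n) (Lam k n)}

theorem H_filt_neg (H : SliceHyp k n K) (hn : 1 ≤ n) (hC : CompHyp K C) (hup : MatUp G K)
    (hlen : G.LengthLE (n + 1)) {L j : ℤ} (hL : levWin n K ≤ L) (hj : j < 0) :
    Subsingleton ((totDiff G).H (filt G K C L) ⊥ j) := by
  refine Diff.subsingleton_H _ fun x hx => ?_
  obtain ⟨⟨h1, h2⟩, h3⟩ := hx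
  rw [SetLike.mem_coe, Submodule.mem_comap, Submodule.mem_bot] at h3
  obtain ⟨y, y1, y2, y3⟩ := push_inf hC hup hlen h1 h2 h3
    fun L' hL' => sliceZero_neg H hn hlen (le_trans hL hL') hj
  exact Submodule.mem_sup_left ⟨y, ⟨y1, y2⟩, y3⟩

theorem H_filt_top (H : SliceHyp k n K) (hn : 1 ≤ n) (hC : CompHyp K C) (hup : MatUp G K)
    (hlen : G.LengthLE (n + 1)) (j : ℤ) :
    Subsingleton ((totDiff G).H (filt G K C (levTop n K)) ⊥ j) := by
  refine Diff.subsingleton_H _ fun x hx => ?_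
  obtain ⟨⟨h1, h2⟩, h3⟩ := hx
  rw [SetLike.mem_coe, Submodule.mem_comap, Submodule.mem_bot] at h3
  obtain ⟨y, y1, y2, y3⟩ := push_inf hC hup hlen h1 h2 h3
    fun L' hL' => sliceZero_top H hn hlen j hL'
  exact Submodule.mem_sup_left ⟨y, ⟨y1, y2⟩, y3⟩

theorem H_top_pos (H : SliceHyp k n K) (hK : 1 ≤ K) (hC : CompHyp K C) (hup : MatUp G K)
    (hlen : G.LengthLE (n + 1)) {j : ℤ} (hj : 1 ≤ j) :
    Subsingleton ((totDiff G).H (top G C) (filt G K C (levWin n K)) j) := by
  refine Diff.subsingleton_H _ fun x hx => ?_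
  obtain ⟨⟨h1, h2⟩, h3⟩ := hx
  rw [SetLike.mem_coe, Submodule.mem_comap, totDiff_d] at h3
  obtain ⟨L, hL⟩ := exists_mem_filt (K := K) h1
  by_cases hle : levWin n K ≤ L
  · exact Submodule.mem_sup_right ⟨filt_anti G K C hle hL, h2⟩
  obtain ⟨N, hN⟩ : ∃ N : ℕ, levWin n K = L + N := ⟨(levWin n K - L).toNat, by omega⟩
  obtain ⟨y, y1, y2, y3⟩ := push hC hup hlen N hL h2 (hN ▸ h3)
    fun L' _ hL' => sliceZero_pos H hK hlen (by omega) hj
  rw [Diff.bdries, Submodule.mem_sup]
  refine ⟨_, ⟨y, ⟨filt_le_top G K C L y1, y2⟩, rfl⟩, x - dTot G y,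
    ⟨hN ▸ y3, Submodule.sub_mem _ h2 ?_⟩, by rw [totDiff_d]; abel⟩
  simpa [totDiff_d] using (totDiff G).d_deg _ _ y2

/-- Finiteness of one level. -/
theorem finite_level (H : SliceHyp k n K) (hC : CompHyp K C) (hup : MatUp G K)
    (hlen : G.LengthLE (n + 1)) (L j : ℤ) :
    Module.Finite k ((totDiff G).H (filt G K C L) (filt G K C (L + 1)) j) := by
  have := H.finite (degOf n K L) (j - posOf n L)
  exact Module.Finite.equiv (levelEquiv G hC hup hlen L j).symm

/-- One level has homology only in a bounded range of positions. -/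
theorem subsingleton_level (hC : CompHyp K C) (hup : MatUp G K)
    (hlen : G.LengthLE (n + 1)) (L j : ℤ) (hj : j < -((n : ℤ) + 1) ∨ ((n : ℤ) + 1) < j) :
    Subsingleton ((totDiff G).H (filt G K C L) (filt G K C (L + 1)) j) := by
  refine Diff.subsingleton_H _ fun x hx => ?_
  obtain ⟨⟨h1, h2⟩, -⟩ := hx
  have : x = 0 := funext fun p => by
    obtain ⟨g, e⟩ := p
    have := hlen g
    have := cdeg_le e
    exact h2 g e (by omega)
  rw [this]
  exact Submodule.zero_mem _

end Window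

end Vale.Agent.P202
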